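import Vale.Agent.P273.H545.BaseTheta

/-!
# P273, LIM-CORE2: the potential on the cores at the theta point

`E` = any real normed space, `b : E → Pa ι` the base coordinates `(y, α)`, `x : E → ℂ` the
coordinate of the core, `D : KapData ι` the matching data of 722, `K` the core primitive.
In the derivative `UKD`: `p` = value and `B` = derivative of the base map.

* `UK_x`, `UK_x_lim`: directions in which only the mark moves;
* `UK_y`: the direction `y l` (and the Euler vector), with limit;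
* `UK_a`, `UK_a_alpha`: the direction `α l`, with limit;
* `abs_UK_le`, `UK_sub_le`: sizes.
-/

open Set Filter Topology Metric Complex

noncomputable section

namespace Vale.Agent.P273.H545

open H722 H722.KapData

variable {ι : Type} [Fintype ι] [Nonempty ι] [DecidableEq ι]
  {E : Type*} [NormedAddCommGroup E] [NormedSpace ℝ E]

/-- the potential on the core, base map `b` -/
def UK (D : KapData ι) (K : (ι → ℂ) × ℂ → (ι → ℂ) →L[ℂ] ℂ) (ξ β : ι → ℝ) (b : E → Pa ι)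
    (x : E → ℂ) (q : E) : ℝ :=
  UC K (fun q => ep (b q)) x (fun q => D.CC ξ β (b q)) (fun q => cc D ξ β (b q)) q

/-- its derivative, `p` = value of the base map, `B` = its derivative -/
def UKD (D : KapData ι) (K0 : (ι → ℂ) →L[ℂ] ℂ) (K' : (ι → ℂ) × ℂ →L[ℝ] ((ι → ℂ) →L[ℂ] ℂ))
    (ξ β : ι → ℝ) (p : Pa ι) (B : E →L[ℝ] Pa ι) (x' : E →L[ℝ] ℂ) : E →L[ℝ] ℝ :=
  UCD K0 K' (cc D ξ β p) ((dep p).comp B) x'
    ((fderiv ℝ (D.CC ξ β) p).comp B) ((ccD D ξ β p).comp B)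

variable {D : KapData ι} {K : (ι → ℂ) × ℂ → (ι → ℂ) →L[ℂ] ℂ} {K0 : (ι → ℂ) →L[ℂ] ℂ}
  {K' : (ι → ℂ) × ℂ →L[ℝ] ((ι → ℂ) →L[ℂ] ℂ)} {ξ β : ι → ℝ} {b : E → Pa ι} {B : E →L[ℝ] Pa ι}
  {x : E → ℂ} {x' : E →L[ℝ] ℂ} {q : E} {p : Pa ι} {m Λ A : ℝ}

omit [DecidableEq ι] in
theorem hasFDerivAt_UK (h : D.Big m (b q)) (hb : HasFDerivAt b B q)
    (hK : HasFDerivAt K K' (ep (b q), x q)) (hx : HasFDerivAt x x' q) (ξ β : ι → ℝ) :
    HasFDerivAt (UK D K ξ β b x) (UKD D (K (ep (b q), x q)) K' ξ β (b q) B x') q := by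
  refine hasFDerivAt_UC hK ?_ hx ?_ ?_
  · exact (hasFDerivAt_ep (b q)).comp q hb
  · exact (hasFDerivAt_CC h ξ β).comp q hb
  · exact (hasFDerivAt_cc h ξ β).comp q hb

omit [DecidableEq ι] in
/-- only the mark moves -/
theorem UK_x (h : D.Big m p) (hΛ : ∀ k, |p.2 k| ≤ Λ) (hA1 : ‖K'‖ ≤ A) {v : E}
    (hv : B v = 0) :
    |UKD D K0 K' ξ β p B x' v| ≤ A * (D.A0 Λ * sz ξ β / m + ‖β‖) * ‖x' v‖ := by
  have hA : 0 ≤ A := (norm_nonneg K').trans hA1
  refine (UC_bound_x hA1 ?_ ?_ ?_).trans ?_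
  · rw [ContinuousLinearMap.comp_apply, hv, map_zero]
  · rw [ContinuousLinearMap.comp_apply, hv, map_zero]
  · funext k
    rw [ContinuousLinearMap.comp_apply, hv, map_zero]
  · refine mul_le_mul_of_nonneg_right (mul_le_mul_of_nonneg_left ?_ hA) (norm_nonneg _)
    exact norm_c_le h hΛ ξ β

omit [Nonempty ι] [DecidableEq ι] in
/-- nothing moves -/
theorem UKD_zero {v : E} (hv : B v = 0) (hx : x' v = 0) : UKD D K0 K' ξ β p B x' v = 0 := by
  refine UCD_zero ?_ hx ?_ ?_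
  · rw [ContinuousLinearMap.comp_apply, hv, map_zero]
  · rw [ContinuousLinearMap.comp_apply, hv, map_zero]
  · funext k
    rw [ContinuousLinearMap.comp_apply, hv, map_zero]

omit [Nonempty ι] [DecidableEq ι] in
theorem UKD_apply (D : KapData ι) (K0 : (ι → ℂ) →L[ℂ] ℂ)
    (K' : (ι → ℂ) × ℂ →L[ℝ] ((ι → ℂ) →L[ℂ] ℂ)) (ξ β : ι → ℝ) (p : Pa ι) (B : E →L[ℝ] Pa ι)
    (x' : E →L[ℝ] ℂ) (v : E) :
    UKD D K0 K' ξ β p B x' v = fderiv ℝ (D.CC ξ β) p (B v) +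
      (K' (dep p (B v), x' v) (cc D ξ β p) +
        K0 (ccD D ξ β p (B v))).re := rfl

omit [Nonempty ι] [DecidableEq ι] in
/-- the part of the derivative that is not the derivative of the constant -/
theorem UKD_sub_le (hA0 : ‖K0‖ ≤ A) (hA1 : ‖K'‖ ≤ A) (v : E) (hx : x' v = 0) :
    |UKD D K0 K' ξ β p B x' v - fderiv ℝ (D.CC ξ β) p (B v)| ≤
      A * (‖cc D ξ β p‖ * ‖dep p (B v)‖ +
        ‖fderiv ℝ (D.xx ξ β) p (B v)‖) := by
  have hA : 0 ≤ A := (norm_nonneg K').trans hA1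
  rw [UKD_apply, add_sub_cancel_left]
  have h1 := norm_EcD_le (c0 := cc D ξ β p) (p' := (dep p).comp B)
    (x' := x') (c' := (ccD D ξ β p).comp B) hA0 hA1 v
  have h2 := norm_ccD_le D ξ β p (B v)
  rw [hx, norm_zero, add_zero] at h1
  refine (Complex.abs_re_le_norm _).trans (le_trans ?_ (h1.trans ?_))
  · exact le_of_eq rfl
  · exact mul_le_mul_of_nonneg_left (add_le_add le_rfl h2) hA

/-- **direction `t • y l`** (the Euler vector: `t = y l`), value and limit -/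
theorem UK_y (h : D.Big m p) (hΛ : ∀ k, |p.2 k| ≤ Λ) (hA0 : ‖K0‖ ≤ A) (hA1 : ‖K'‖ ≤ A)
    (ξ β : ι → ℝ) {v : E} {l : ι} {t : ℝ} (hv : B v = t • ey l) (hx : x' v = 0) :
    |UKD D K0 K' ξ β p B x' v| ≤
        (1 + 5 * A) * (D.A0 Λ * sz ξ β) * (|t| * (m / p.1 l ^ 2)) ∧
      |UKD D K0 K' ξ β p B x' v - t * (rr p.1 l * D.wf ξ β p l / p.1 l)| ≤
        (1 + 5 * A) * (D.A0 Λ * sz ξ β) * (|t| / p.1 l ^ 2) := by
  have hA : 0 ≤ A := (norm_nonneg K').trans hA1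
  obtain ⟨hm, hZ, hβ, hc⟩ := nums h hΛ ξ β
  have hl := h.le l
  have hl0 : (0 : ℝ) < p.1 l := by linarith
  obtain ⟨y1, -, y3, -⟩ := bounds_y h hΛ ξ β l
  have hxx := norm_xx_y h hΛ ξ β l
  have hd := norm_dep_ey p l
  have he := exp_neg_le hl0
  have hs := UKD_sub_le (D := D) (K0 := K0) (K' := K') (ξ := ξ) (β := β) (B := B) (p := p)
    hA0 hA1 v hx
  set Z := D.A0 Λ * sz ξ β
  set y := p.1 l
  have e1 : fderiv ℝ (D.CC ξ β) p (B v) = t * fderiv ℝ (D.CC ξ β) p (ey l) := by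
    rw [hv, map_smul, smul_eq_mul]
  have e2 : ‖dep p (B v)‖ ≤ |t| * (2 / y ^ 2) := by
    rw [hv, map_smul, norm_smul, Real.norm_eq_abs]
    exact mul_le_mul_of_nonneg_left (hd.trans he) (abs_nonneg _)
  have e3 : ‖fderiv ℝ (D.xx ξ β) p (B v)‖ ≤ |t| * (4 * Z / y ^ 2) := by
    rw [hv, map_smul, norm_smul, Real.norm_eq_abs]
    exact mul_le_mul_of_nonneg_left hxx (abs_nonneg _)
  have e4 : |UKD D K0 K' ξ β p B x' v - t * fderiv ℝ (D.CC ξ β) p (ey l)| ≤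
      5 * A * Z * (|t| / y ^ 2) := by
    rw [e1] at hs
    refine hs.trans ?_
    calc A * (‖cc D ξ β p‖ * ‖dep p (B v)‖ +
          ‖fderiv ℝ (D.xx ξ β) p (B v)‖)
        ≤ A * (Z / 5 * (|t| * (2 / y ^ 2)) + |t| * (4 * Z / y ^ 2)) :=
          mul_le_mul_of_nonneg_left (add_le_add (mul_le_mul hc e2 (norm_nonneg _)
            (by positivity)) e3) hA
      _ = (22 / 5) * (A * Z * (|t| / y ^ 2)) := by ring
      _ ≤ 5 * (A * Z * (|t| / y ^ 2)) :=
          mul_le_mul_of_nonneg_right (by norm_num) (by positivity)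
      _ = _ := by ring
  constructor
  · have h1 := abs_add_le (t * fderiv ℝ (D.CC ξ β) p (ey l))
      (UKD D K0 K' ξ β p B x' v - t * fderiv ℝ (D.CC ξ β) p (ey l))
    rw [add_sub_cancel, abs_mul] at h1
    have h2 : |t| * |fderiv ℝ (D.CC ξ β) p (ey l)| ≤ |t| * (Z * (m / y ^ 2)) :=
      mul_le_mul_of_nonneg_left y1 (abs_nonneg _)
    have h3 : 5 * A * Z * (|t| / y ^ 2) ≤ 5 * A * Z * (|t| * (m / y ^ 2)) := by
      refine mul_le_mul_of_nonneg_left ?_ (by positivity)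
      have : |t| * (m / y ^ 2) = m * (|t| / y ^ 2) := by ring
      rw [this]
      exact le_mul_of_one_le_left (by positivity) (by linarith)
    calc _ ≤ |t| * (Z * (m / y ^ 2)) + 5 * A * Z * (|t| * (m / y ^ 2)) := by linarith
      _ = _ := by ring
  · have h1 : UKD D K0 K' ξ β p B x' v - t * (rr p.1 l * D.wf ξ β p l / y) =
        (UKD D K0 K' ξ β p B x' v - t * fderiv ℝ (D.CC ξ β) p (ey l)) +
        t / y * (y * fderiv ℝ (D.CC ξ β) p (ey l) - rr p.1 l * D.wf ξ β p l) := by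
      field_simp
      ring
    rw [h1]
    refine (abs_add_le _ _).trans ?_
    have h2 : |t / y * (y * fderiv ℝ (D.CC ξ β) p (ey l) -
        rr p.1 l * D.wf ξ β p l)| ≤ |t| / y * (Z / y) := by
      rw [abs_mul, abs_div, abs_of_pos hl0]
      exact mul_le_mul_of_nonneg_left y3 (by positivity)
    calc _ ≤ 5 * A * Z * (|t| / y ^ 2) + |t| / y * (Z / y) := add_le_add e4 h2
      _ = _ := by ring

/-- **direction `t • α l`**, value and limit -/
theorem UK_a (h : D.Big m p) (hΛ : ∀ k, |p.2 k| ≤ Λ) (hA0 : ‖K0‖ ≤ A) (hA1 : ‖K'‖ ≤ A)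
    (ξ β : ι → ℝ) {v : E} {l : ι} (hv : B v = ea l) (hx : x' v = 0) :
    |UKD D K0 K' ξ β p B x' v| ≤ (1 + A) * (D.A0 Λ * sz ξ β) ∧
      |UKD D K0 K' ξ β p B x' v - rr p.1 l * (β l / (2 * Real.pi))| ≤
        (1 + 3 * A) * (D.A0 Λ * sz ξ β) / m := by
  have hA : 0 ≤ A := (norm_nonneg K').trans hA1
  obtain ⟨hm, hZ, hβ, hc⟩ := nums h hΛ ξ β
  have hm0 : 0 < m := by linarith
  have hl := h.le l
  have hl0 : (0 : ℝ) < p.1 l := by linarith
  obtain ⟨y1, -, y3, -⟩ := bounds_a h hΛ ξ β l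
  have hxx := norm_xx_a h hΛ ξ β l
  have hd := norm_dep_ea p l
  have he : Real.exp (-(p.1 l)) ≤ 1 / m := by
    refine (exp_neg_le hl0).trans ?_
    rw [div_le_div_iff₀ (by positivity) hm0]
    nlinarith
  have hs := UKD_sub_le (D := D) (K0 := K0) (K' := K') (ξ := ξ) (β := β) (B := B) (p := p)
    hA0 hA1 v hx
  rw [hv] at hs
  set Z := D.A0 Λ * sz ξ β
  have e4 : |UKD D K0 K' ξ β p B x' v - fderiv ℝ (D.CC ξ β) p (ea l)| ≤
      3 * A * Z / m := by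
    refine hs.trans ?_
    calc A * (‖cc D ξ β p‖ * ‖dep p (ea l)‖ +
          ‖fderiv ℝ (D.xx ξ β) p (ea l)‖)
        ≤ A * (Z / 5 * (1 / m) + 2 * Z / m) :=
          mul_le_mul_of_nonneg_left (add_le_add (mul_le_mul hc (hd.trans he) (norm_nonneg _)
            (by positivity)) hxx) hA
      _ = (11 / 5) * (A * Z / m) := by ring
      _ ≤ 3 * (A * Z / m) := mul_le_mul_of_nonneg_right (by norm_num) (by positivity)
      _ = _ := by ring
  constructor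
  · have h1 := abs_add_le (fderiv ℝ (D.CC ξ β) p (ea l))
      (UKD D K0 K' ξ β p B x' v - fderiv ℝ (D.CC ξ β) p (ea l))
    rw [add_sub_cancel] at h1
    have h3 : 3 * A * Z / m ≤ A * Z := by
      rw [div_le_iff₀ hm0]
      nlinarith [mul_nonneg hA hZ]
    linarith
  · have h1 : UKD D K0 K' ξ β p B x' v - rr p.1 l * (β l / (2 * Real.pi)) =
        (UKD D K0 K' ξ β p B x' v - fderiv ℝ (D.CC ξ β) p (ea l)) +
        (fderiv ℝ (D.CC ξ β) p (ea l) - rr p.1 l * (β l / (2 * Real.pi))) := by ring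
    rw [h1]
    refine (abs_add_le _ _).trans ?_
    have h2 : Z / p.1 l ≤ Z / m := div_le_div_of_nonneg_left hZ hm0 hl
    calc _ ≤ 3 * A * Z / m + Z / m := add_le_add e4 (y3.trans h2)
      _ = _ := by ring

/-- **direction `α l`, `β = 0`**: exponentially small -/
theorem UK_a_alpha (h : D.Big m p) (hΛ : ∀ k, |p.2 k| ≤ Λ) (hA0 : ‖K0‖ ≤ A)
    (hA1 : ‖K'‖ ≤ A) (ξ : ι → ℝ) {v : E} {l : ι} (hv : B v = ea l) (hx : x' v = 0) :
    |UKD D K0 K' ξ 0 p B x' v| ≤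
      (1 + 2 * A) * (D.A0 Λ * ‖ξ‖) * Real.exp (-(p.1 l)) := by
  have hA : 0 ≤ A := (norm_nonneg K').trans hA1
  obtain ⟨hm, hZ, hβ, hc⟩ := nums h hΛ ξ 0
  have hsz : sz ξ (0 : ι → ℝ) = ‖ξ‖ := by unfold sz; rw [norm_zero, add_zero]
  rw [hsz] at hZ hc
  have y1 := (bounds_a_alpha h hΛ ξ l).1
  have hxx := norm_xx_a_alpha h hΛ ξ l
  have hd := norm_dep_ea p l
  have hs := UKD_sub_le (D := D) (K0 := K0) (K' := K') (ξ := ξ) (β := 0) (B := B) (p := p)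
    hA0 hA1 v hx
  rw [hv] at hs
  have he := Real.exp_pos (-(p.1 l))
  set Z := D.A0 Λ * ‖ξ‖
  set e := Real.exp (-(p.1 l))
  have e4 : |UKD D K0 K' ξ 0 p B x' v - fderiv ℝ (D.CC ξ 0) p (ea l)| ≤
      2 * A * Z * e := by
    refine hs.trans ?_
    calc A * (‖cc D ξ 0 p‖ * ‖dep p (ea l)‖ +
          ‖fderiv ℝ (D.xx ξ 0) p (ea l)‖)
        ≤ A * (Z / 5 * e + Z * e) :=
          mul_le_mul_of_nonneg_left (add_le_add (mul_le_mul hc hd (norm_nonneg _)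
            (by positivity)) hxx) hA
      _ = (6 / 5) * (A * Z * e) := by ring
      _ ≤ 2 * (A * Z * e) := mul_le_mul_of_nonneg_right (by norm_num) (by positivity)
      _ = _ := by ring
  have h1 := abs_add_le (fderiv ℝ (D.CC ξ 0) p (ea l))
    (UKD D K0 K' ξ 0 p B x' v - fderiv ℝ (D.CC ξ 0) p (ea l))
  rw [add_sub_cancel] at h1
  calc _ ≤ Z * e + 2 * A * Z * e := by linarith
    _ = _ := by ring

/-- **the mark direction**, first order -/
theorem UK_x_lim (h : D.Big m p) (hΛ : ∀ k, |p.2 k| ≤ Λ) (hA1 : ‖K'‖ ≤ A)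
    (ξ β : ι → ℝ) {v : E} (hv : B v = 0) :
    |UKD D K0 K' ξ β p B x' v - (K' (0, x' v) (ib β)).re| ≤
      A * (D.A0 Λ * sz ξ β / m) * ‖x' v‖ := by
  have hA : 0 ≤ A := (norm_nonneg K').trans hA1
  obtain ⟨hm, hZ, -, -⟩ := nums h hΛ ξ β
  have hm0 : 0 < m := by linarith
  rw [UKD_apply, hv, map_zero, map_zero, map_zero, map_zero, add_zero, zero_add,
    ← Complex.sub_re, ← map_sub]
  have h1 : ‖cc D ξ β p - ib β‖ ≤ D.A0 Λ * sz ξ β / m := by
    rw [pi_norm_le_iff_of_nonneg (by positivity)]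
    intro k
    have h2 : (cc D ξ β p - ib β) k = ((D.xx ξ β p k : ℝ) : ℂ) := by
      show (D.xx ξ β p k : ℂ) + ib β k - ib β k = _
      rw [add_sub_cancel_right]
    rw [h2, Complex.norm_real, Real.norm_eq_abs]
    exact ((bounds_v h hΛ ξ β).2.2.1 k).trans (div_le_div_of_nonneg_left hZ hm0 (h.le k))
  refine (Complex.abs_re_le_norm _).trans (((K' (0, x' v)).le_opNorm _).trans ?_)
  have h3 : ‖K' (0, x' v)‖ ≤ A * ‖x' v‖ := by
    refine (K'.le_opNorm _).trans (mul_le_mul hA1 ?_ (norm_nonneg _) hA)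
    rw [Prod.norm_mk, norm_zero]
    exact max_le (norm_nonneg _) le_rfl
  calc _ ≤ A * ‖x' v‖ * (D.A0 Λ * sz ξ β / m) :=
        mul_le_mul h3 h1 (norm_nonneg _) (by positivity)
    _ = _ := by ring

omit [DecidableEq ι] [NormedAddCommGroup E] [NormedSpace ℝ E] in
/-- the size of the potential -/
theorem abs_UK_le (h : D.Big m (b q)) (hΛ : ∀ k, |(b q).2 k| ≤ Λ)
    (hA : ‖K (ep (b q), x q)‖ ≤ A) (ξ β : ι → ℝ) :
    |UK D K ξ β b x q| ≤ (1 + A) * (D.A0 Λ * sz ξ β) := by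
  have hA' : 0 ≤ A := (norm_nonneg _).trans hA
  obtain ⟨hm, hZ, hβ, hc⟩ := nums h hΛ ξ β
  have h1 := abs_UC_le (K := K) (p := fun q => ep (b q)) (x := x)
    (C := fun q => D.CC ξ β (b q)) (c := fun q => cc D ξ β (b q)) (q := q) hA
  have h2 := (bounds_v h hΛ ξ β).1
  have h3 : A * ‖cc D ξ β (b q)‖ ≤ A * (D.A0 Λ * sz ξ β) :=
    mul_le_mul_of_nonneg_left (by linarith) hA'
  unfold UK
  linarith

omit [DecidableEq ι] [NormedAddCommGroup E] [NormedSpace ℝ E] in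
theorem UK_sub_le (h : D.Big m (b q)) (hΛ : ∀ k, |(b q).2 k| ≤ Λ)
    (hA : ‖K (ep (b q), x q)‖ ≤ A) (ξ β : ι → ℝ) :
    |UK D K ξ β b x q - D.CC ξ β (b q)| ≤ A * (D.A0 Λ * sz ξ β / m + ‖β‖) := by
  have hA' : 0 ≤ A := (norm_nonneg _).trans hA
  have h1 := UC_sub_le (K := K) (p := fun q => ep (b q)) (x := x)
    (C := fun q => D.CC ξ β (b q)) (c := fun q => cc D ξ β (b q)) (q := q) hA
  exact h1.trans (mul_le_mul_of_nonneg_left (norm_c_le h hΛ ξ β) hA')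

end Vale.Agent.P273.H545
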