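import Vale.Agent.P273.H545.BaseTheta

/-!
# P273, LIM-NECK2: the classes with `β = 0` at the theta point

Everything is bounded by `wa ξ p = ∑ |ξ k| / y k`.
-/

open Set Filter Topology Metric Complex Finset

noncomputable section

namespace Vale.Agent.P273.H545

open H722 H722.KapData

variable {ι : Type} [Fintype ι]

/-- `∑ |ξ k| / y k` -/
def wa (ξ : ι → ℝ) (p : Pa ι) : ℝ := ∑ k, |ξ k| / p.1 k

/-- the constant of the classes with `β = 0` -/
def A2 (D : KapData ι) : ℝ := 8 + 40 * D.κ + 24 * nn ι * D.κ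

variable {D : KapData ι} {ξ : ι → ℝ} {p : Pa ι} {m : ℝ}

theorem ww_MM (ξ : ι → ℝ) (p : Pa ι) : ww (MM p) ξ = 2 * wa ξ p := by
  unfold ww wa MM
  rw [mul_sum]
  refine sum_congr rfl fun k _ => ?_
  rw [div_div_eq_mul_div]
  ring

theorem gg_zero (D : KapData ι) (ξ : ι → ℝ) (p : Pa ι) : D.gg ξ 0 p = ξ := by
  funext k
  unfold KapData.gg
  have h1 : RG (0 : ι → ℝ) (D.kap (ep p)) k = 0 := by
    rw [RG_apply]
    have : ib (0 : ι → ℝ) = 0 := by funext l; simp [ib]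
    rw [this, map_zero]; rfl
  rw [h1]
  simp

theorem wa_nonneg (h : D.Big m p) (ξ : ι → ℝ) : 0 ≤ wa ξ p := by
  refine sum_nonneg fun k _ => div_nonneg (abs_nonneg _) ?_
  have := h.pos
  have := h.le k
  linarith

theorem xi_le_wa (h : D.Big m p) (ξ : ι → ℝ) (k : ι) : |ξ k| ≤ wa ξ p * p.1 k := by
  have hk : 0 < p.1 k := by
    have := h.pos
    have := h.le k
    linarith
  have h1 : |ξ k| / p.1 k ≤ wa ξ p :=
    single_le_sum (f := fun k => |ξ k| / p.1 k) (fun l _ => div_nonneg (abs_nonneg _) (by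
      have := h.pos
      have := h.le l
      linarith)) (mem_univ k)
  rwa [div_le_iff₀ hk] at h1

theorem one_le_A2 (D : KapData ι) : 8 ≤ A2 D := by
  have h1 := D.κ_one
  have h2 : (0 : ℝ) ≤ nn ι := nn_nonneg
  unfold A2
  have : 0 ≤ 24 * nn ι * D.κ := by positivity
  linarith

variable [Nonempty ι]

/-- **the values** -/
theorem alpha0 (h : D.Big m p) (ξ : ι → ℝ) :
    ‖D.xx ξ 0 p‖ ≤ 8 * wa ξ p ∧ |D.CC ξ 0 p| ≤ 2 * m * wa ξ p ∧
      (∀ k, |D.wf ξ 0 p k| ≤ 3 * m * wa ξ p + |ξ k|) ∧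
      ∀ k, |D.wf ξ 0 p k| ≤ 4 * wa ξ p * p.1 k := by
  have h1 := isSol h ξ 0
  rw [gg_zero] at h1
  obtain ⟨a1, a2, a3⟩ := h1.bound h.hM h.hm h.hm0 h.hK h.hmκ
  rw [ww_MM] at a1 a2 a3
  have hwa := wa_nonneg h ξ
  have hw : ∀ k, |D.wf ξ 0 p k| ≤ 3 * m * wa ξ p + |ξ k| := by
    intro k
    have := a3 k
    have h2 : MM p k * D.xx ξ 0 p k = D.wf ξ 0 p k := rfl
    rw [h2] at this
    linarith
  refine ⟨by linarith, by linarith, hw, fun k => (hw k).trans ?_⟩
  have h2 := xi_le_wa h ξ k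
  have h3 := mul_le_mul_of_nonneg_left (h.le k) hwa
  linarith

theorem cc_alpha (h : D.Big m p) (ξ : ι → ℝ) : ‖cc D ξ 0 p‖ ≤ 8 * wa ξ p := by
  have h1 := norm_cc_le D ξ 0 p
  rw [norm_zero, add_zero] at h1
  exact h1.trans (alpha0 h ξ).1

theorem exp_le_inv {y : ℝ} (hy : 8 ≤ y) : Real.exp (-y) ≤ 1 / y := by
  have h1 := exp_neg_le (by linarith : (0 : ℝ) < y)
  refine h1.trans ?_
  rw [div_le_div_iff₀ (by positivity) (by linarith)]
  nlinarith

variable [DecidableEq ι]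

omit [DecidableEq ι] in
theorem bb_alpha (h : D.Big m p) (ξ : ι → ℝ) (l : ι) :
    D.bb ξ 0 p l ≤ 8 * D.κ * wa ξ p * Real.exp (-(p.1 l)) := by
  have h1 := (alpha0 h ξ).1
  have h2 := D.κ_one
  have h3 := Real.exp_pos (-(p.1 l))
  unfold KapData.bb
  rw [norm_zero, zero_add]
  calc D.κ * Real.exp (-(p.1 l)) * ‖D.xx ξ 0 p‖
      ≤ D.κ * Real.exp (-(p.1 l)) * (8 * wa ξ p) :=
        mul_le_mul_of_nonneg_left h1 (by positivity)
    _ = _ := by ring

/-- **direction `y l`** -/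
theorem alpha_y (h : D.Big m p) (ξ : ι → ℝ) (l : ι) :
    |fderiv ℝ (D.CC ξ 0) p (ey l)| ≤ A2 D * wa ξ p * (m / p.1 l) ∧
    (∀ k, |fderiv ℝ (fun q => D.wf ξ 0 q k) p (ey l)| ≤ A2 D * wa ξ p * (m / p.1 l)) ∧
    ‖fderiv ℝ (D.xx ξ 0) p (ey l)‖ ≤ (2 * A2 D + 8) * wa ξ p / p.1 l := by
  obtain ⟨s1, -, s3⟩ := core_y h ξ 0 l
  obtain ⟨a1, -, -, a4⟩ := alpha0 h ξ
  have hb := bb_alpha h ξ l
  have hwa := wa_nonneg h ξ
  have hm := h.pos
  have hl := h.le l
  have hl0 : 0 < p.1 l := by linarith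
  have hκ := D.κ_one
  have hn : (0 : ℝ) ≤ nn ι := nn_nonneg
  have he := exp_le_inv (by linarith : 8 ≤ p.1 l)
  set W := wa ξ p
  set y := p.1 l
  have hx : |D.xx ξ 0 p l / 2| ≤ 4 * W := by
    rw [abs_div, abs_two]
    have : |D.xx ξ 0 p l| ≤ ‖D.xx ξ 0 p‖ := norm_le_pi_norm (D.xx ξ 0 p) l
    linarith
  have hb2 : D.bb ξ 0 p l ≤ 8 * D.κ * W / y := by
    refine hb.trans ?_
    calc 8 * D.κ * W * Real.exp (-y) ≤ 8 * D.κ * W * (1 / y) :=
          mul_le_mul_of_nonneg_left he (by positivity)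
      _ = _ := by ring
  have hC1 : |fderiv ℝ (D.CC ξ 0) p (ey l)| ≤ 8 * W * (m / y) + 16 * nn ι * D.κ * W / y := by
    refine s1.trans (add_le_add ?_ ?_)
    · calc 2 * m * |D.xx ξ 0 p l / 2| / y ≤ 2 * m * (4 * W) / y :=
            div_le_div_of_nonneg_right (mul_le_mul_of_nonneg_left hx (by linarith)) hl0.le
        _ = _ := by ring
    · calc 2 * nn ι * D.bb ξ 0 p l ≤ 2 * nn ι * (8 * D.κ * W / y) :=
            mul_le_mul_of_nonneg_left hb2 (by positivity)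
        _ = _ := by ring
  have hr : 8 * D.κ * |D.xx ξ 0 p l / 2| / y + (nn ι + 1) * D.bb ξ 0 p l ≤
      (40 * D.κ + 8 * nn ι * D.κ) * W / y := by
    have r1 : 8 * D.κ * |D.xx ξ 0 p l / 2| / y ≤ 8 * D.κ * (4 * W) / y :=
      div_le_div_of_nonneg_right (mul_le_mul_of_nonneg_left hx (by positivity)) hl0.le
    have r2 : (nn ι + 1) * D.bb ξ 0 p l ≤ (nn ι + 1) * (8 * D.κ * W / y) :=
      mul_le_mul_of_nonneg_left hb2 (by positivity)
    calc _ ≤ 8 * D.κ * (4 * W) / y + (nn ι + 1) * (8 * D.κ * W / y) := add_le_add r1 r2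
      _ = _ := by ring
  have hinv : ∀ a : ℝ, 0 ≤ a → a * W / y ≤ a * W * (m / y) := by
    intro a ha
    have : a * W * (m / y) = m * (a * W / y) := by ring
    rw [this]
    exact le_mul_of_one_le_left (by positivity) (by linarith)
  have hw : ∀ k, |fderiv ℝ (fun q => D.wf ξ 0 q k) p (ey l)| ≤ A2 D * W * (m / y) := by
    intro k
    have h1 := abs_add_le (fderiv ℝ (D.CC ξ 0) p (ey l))
      (fderiv ℝ (fun q => D.wf ξ 0 q k) p (ey l) - fderiv ℝ (D.CC ξ 0) p (ey l))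
    rw [add_sub_cancel] at h1
    have h2 := s3 k
    have h3 := hinv (16 * nn ι * D.κ) (by positivity)
    have h4 := hinv (40 * D.κ + 8 * nn ι * D.κ) (by positivity)
    unfold A2
    calc |fderiv ℝ (fun q => D.wf ξ 0 q k) p (ey l)|
        ≤ (8 * W * (m / y) + 16 * nn ι * D.κ * W / y) +
          (40 * D.κ + 8 * nn ι * D.κ) * W / y := by linarith
      _ ≤ (8 * W * (m / y) + 16 * nn ι * D.κ * W * (m / y)) +
          (40 * D.κ + 8 * nn ι * D.κ) * W * (m / y) := by linarith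
      _ = _ := by ring
  refine ⟨?_, hw, ?_⟩
  · have h3 := hinv (16 * nn ι * D.κ) (by positivity)
    have h5 : 0 ≤ (40 * D.κ + 8 * nn ι * D.κ) * W * (m / y) := by positivity
    unfold A2
    calc _ ≤ 8 * W * (m / y) + 16 * nn ι * D.κ * W * (m / y) := hC1.trans (by linarith)
      _ ≤ 8 * W * (m / y) + 16 * nn ι * D.κ * W * (m / y) +
          (40 * D.κ + 8 * nn ι * D.κ) * W * (m / y) := by linarith
      _ = _ := by ring
  · have hA2 := one_le_A2 D
    rw [pi_norm_le_iff_of_nonneg (by positivity)]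
    intro k
    have hk := h.le k
    have hk0 : 0 < p.1 k := by linarith
    rw [fderiv_xx h ξ 0 (ey l) k, Real.norm_eq_abs, abs_mul, abs_of_pos (by positivity)]
    have h3 : 2 / p.1 k * |fderiv ℝ (fun q => D.wf ξ 0 q k) p (ey l)| ≤ 2 * A2 D * W / y := by
      calc 2 / p.1 k * |fderiv ℝ (fun q => D.wf ξ 0 q k) p (ey l)|
          ≤ 2 / p.1 k * (A2 D * W * (m / y)) :=
            mul_le_mul_of_nonneg_left (hw k) (by positivity)
        _ = (m / p.1 k) * (2 * A2 D * W / y) := by ring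
        _ ≤ 1 * (2 * A2 D * W / y) :=
            mul_le_mul_of_nonneg_right ((div_le_one hk0).2 hk) (by positivity)
        _ = _ := one_mul _
    have h4 : 2 / p.1 k * |(ey l : Pa ι).1 k / p.1 k * D.wf ξ 0 p k| ≤ 8 * W / y := by
      by_cases hkl : k = l
      · subst hkl
        have h5 : (ey k : Pa ι).1 k = 1 := by simp [ey]
        rw [h5, abs_mul, abs_of_pos (by positivity)]
        calc 2 / p.1 k * (1 / p.1 k * |D.wf ξ 0 p k|)
            ≤ 2 / p.1 k * (1 / p.1 k * (4 * W * p.1 k)) :=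
              mul_le_mul_of_nonneg_left (mul_le_mul_of_nonneg_left (a4 k) (by positivity))
                (by positivity)
          _ = 8 * W / p.1 k := by
            field_simp
            ring
      · have h5 : (ey l : Pa ι).1 k = 0 := by simp [ey, hkl]
        rw [h5, zero_div, zero_mul, abs_zero, mul_zero]
        positivity
    calc 2 / p.1 k * |fderiv ℝ (fun q => D.wf ξ 0 q k) p (ey l) -
          (ey l : Pa ι).1 k / p.1 k * D.wf ξ 0 p k|
        ≤ 2 / p.1 k * (|fderiv ℝ (fun q => D.wf ξ 0 q k) p (ey l)| +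
          |(ey l : Pa ι).1 k / p.1 k * D.wf ξ 0 p k|) :=
          mul_le_mul_of_nonneg_left (abs_sub _ _) (by positivity)
      _ ≤ 2 * A2 D * W / y + 8 * W / y := by rw [mul_add]; exact add_le_add h3 h4
      _ = _ := by ring

/-- **direction `α l`** -/
theorem alpha_a (h : D.Big m p) (ξ : ι → ℝ) (l : ι) :
    |fderiv ℝ (D.CC ξ 0) p (ea l)| ≤ A2 D * wa ξ p * Real.exp (-(p.1 l)) ∧
    (∀ k, |fderiv ℝ (fun q => D.wf ξ 0 q k) p (ea l)| ≤
      A2 D * wa ξ p * Real.exp (-(p.1 l))) ∧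
    ‖fderiv ℝ (D.xx ξ 0) p (ea l)‖ ≤ A2 D * wa ξ p * Real.exp (-(p.1 l)) := by
  obtain ⟨s1, -, s3⟩ := core_a h ξ 0 l
  have hb := bb_alpha h ξ l
  have hwa := wa_nonneg h ξ
  have hm := h.pos
  have hκ := D.κ_one
  have hn : (0 : ℝ) ≤ nn ι := nn_nonneg
  have he := Real.exp_pos (-(p.1 l))
  have hA2 := one_le_A2 D
  simp only [Pi.zero_apply, zero_div, abs_zero, mul_zero, zero_add, sub_zero, ite_self,
    add_zero] at s1 s3
  set W := wa ξ p
  set e := Real.exp (-(p.1 l))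
  have hWe : 0 ≤ D.κ * W * e := by positivity
  have hWe' : 0 ≤ W * e := by positivity
  have hnWe : 0 ≤ nn ι * (D.κ * W * e) := by positivity
  have hA : A2 D * W * e = 8 * (W * e) + 40 * (D.κ * W * e) + 24 * (nn ι * (D.κ * W * e)) := by
    unfold A2; ring
  have hC1 : |fderiv ℝ (D.CC ξ 0) p (ea l)| ≤ 16 * (nn ι * (D.κ * W * e)) := by
    calc _ ≤ 2 * nn ι * D.bb ξ 0 p l := s1
      _ ≤ 2 * nn ι * (8 * D.κ * W * e) := mul_le_mul_of_nonneg_left hb (by positivity)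
      _ = _ := by ring
  have hw : ∀ k, |fderiv ℝ (fun q => D.wf ξ 0 q k) p (ea l)| ≤ A2 D * W * e := by
    intro k
    have h1 := abs_add_le (fderiv ℝ (D.CC ξ 0) p (ea l))
      (fderiv ℝ (fun q => D.wf ξ 0 q k) p (ea l) - fderiv ℝ (D.CC ξ 0) p (ea l))
    rw [add_sub_cancel] at h1
    have h2 : |fderiv ℝ (fun q => D.wf ξ 0 q k) p (ea l) - fderiv ℝ (D.CC ξ 0) p (ea l)| ≤
        (nn ι + 1) * (8 * D.κ * W * e) :=
      (s3 k).trans (mul_le_mul_of_nonneg_left hb (by positivity))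
    have h3 : (nn ι + 1) * (8 * D.κ * W * e) =
        8 * (nn ι * (D.κ * W * e)) + 8 * (D.κ * W * e) := by ring
    rw [hA]
    linarith
  refine ⟨by rw [hA]; linarith, hw, ?_⟩
  rw [pi_norm_le_iff_of_nonneg (by positivity)]
  intro k
  have hk := h.le k
  have hk0 : 0 < p.1 k := by linarith
  rw [fderiv_xx h ξ 0 (ea l) k, Real.norm_eq_abs, abs_mul, abs_of_pos (by positivity)]
  have h5 : (ea l : Pa ι).1 k = 0 := by simp [ea]
  rw [h5, zero_div, zero_mul, sub_zero]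
  calc 2 / p.1 k * |fderiv ℝ (fun q => D.wf ξ 0 q k) p (ea l)|
      ≤ 1 * (A2 D * W * e) := by
        refine mul_le_mul ?_ (hw k) (abs_nonneg _) (by norm_num)
        rw [div_le_one hk0]
        linarith
    _ = _ := one_mul _

end Vale.Agent.P273.H545
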