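import Vale.Agent.P273.H545.KapAlpha
import Vale.Agent.P273.H803.LegNeck

/-!
# P273, LIM-NECK2: the potential in a neck at the theta point

`E` = any real normed space, `b : E → Pa ι` the base coordinates `(y, α)`, `S Θ : E → ℝ` the
logarithmic coordinates of the point, `D : KapData ι` the matching data, `h` the regular factor.

* `UNK`, `UNKD`, `hasFDerivAt_UNK`: the potential and its derivative;
* `UNKD_poly_le`: derivative minus polyhedral part;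
* `UNK_gap`, `UNK_y`, `UNK_a`: the three kinds of directions, bounds;
* `UNK_gap_alpha`, `UNK_y_alpha`, `UNK_a_alpha`: the same for `β = 0`.
-/

open Set Filter Topology Metric Complex

noncomputable section

namespace Vale.Agent.P273.H545

open H722 H722.KapData H803

variable {ι : Type} [Fintype ι] {E : Type*} [NormedAddCommGroup E] [NormedSpace ℝ E]

/-- the `k`-th length as a form on the base -/
def pY (k : ι) : Pa ι →L[ℝ] ℝ :=
  (ContinuousLinearMap.proj (R := ℝ) (φ := fun _ : ι => ℝ) k).comp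
    (ContinuousLinearMap.fst ℝ (ι → ℝ) (ι → ℝ))

/-- the `k`-th angle as a form on the base -/
def pA (k : ι) : Pa ι →L[ℝ] ℝ :=
  (ContinuousLinearMap.proj (R := ℝ) (φ := fun _ : ι => ℝ) k).comp
    (ContinuousLinearMap.snd ℝ (ι → ℝ) (ι → ℝ))

omit [Fintype ι] in
@[simp] theorem pY_apply (k : ι) (v : Pa ι) : pY k v = v.1 k := rfl
omit [Fintype ι] in
@[simp] theorem pA_apply (k : ι) (v : Pa ι) : pA k v = v.2 k := rfl

/-- `exp (- s + i θ)` -/
def cX (s θ : ℝ) : ℂ := cexp (-(s : ℂ) + I * (θ : ℂ))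

theorem norm_cX (s θ : ℝ) : ‖cX s θ‖ = Real.exp (-s) := by
  unfold cX
  rw [Complex.norm_exp]
  simp

/-- the potential in the neck `k` -/
def UNK (D : KapData ι) (h : (ι → ℂ) × ℂ → (ι → ℂ) →L[ℂ] ℂ) (ξ β : ι → ℝ) (k : ι)
    (b : E → Pa ι) (S Θ : E → ℝ) (q : E) : ℝ :=
  UN h (ξ k) (β k) (fun q => ep (b q)) S Θ (fun q => (b q).1 k) (fun q => (b q).2 k)
    (fun q => D.wf ξ β (b q) k) (fun q => cc D ξ β (b q)) q

/-- the derivative of the potential in the neck `k` -/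
def UNKD (D : KapData ι) (h0 h1 : (ι → ℂ) →L[ℂ] ℂ)
    (hX' hY' : (ι → ℂ) × ℂ →L[ℝ] ((ι → ℂ) →L[ℂ] ℂ)) (ξ β : ι → ℝ) (k : ι) (p : Pa ι)
    (S0 Θ0 : ℝ) (B : E →L[ℝ] Pa ι) (S' Θ' : E →L[ℝ] ℝ) : E →L[ℝ] ℝ :=
  UP (β k) S0 (p.1 k) (D.wf ξ β p k) S' Θ' ((pY k).comp B) ((pA k).comp B)
      ((fderiv ℝ (fun q => D.wf ξ β q k) p).comp B) +
    (Complex.reCLM.comp (ZfD h0 hX' (cX S0 Θ0) (cc D ξ β p) ((dep p).comp B)
        (cX S0 Θ0 • lf S' Θ') ((ccD D ξ β p).comp B)) -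
      Complex.reCLM.comp (ZfD h1 hY' (cX (p.1 k - S0) (p.2 k - Θ0)) (cc D ξ β p) ((dep p).comp B)
        (cX (p.1 k - S0) (p.2 k - Θ0) • lf ((pY k).comp B - S') ((pA k).comp B - Θ'))
        ((ccD D ξ β p).comp B)))

variable {D : KapData ι} {h : (ι → ℂ) × ℂ → (ι → ℂ) →L[ℂ] ℂ} {h0 h1 : (ι → ℂ) →L[ℂ] ℂ}
  {hX' hY' : (ι → ℂ) × ℂ →L[ℝ] ((ι → ℂ) →L[ℂ] ℂ)} {ξ β : ι → ℝ} {k l : ι} {b : E → Pa ι}
  {B : E →L[ℝ] Pa ι} {S Θ : E → ℝ} {S' Θ' : E →L[ℝ] ℝ} {S0 Θ0 : ℝ} {q : E} {p : Pa ι}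
  {m Λ A : ℝ}

section

variable [Nonempty ι]

theorem hasFDerivAt_wf (hb : D.Big m p) (ξ β : ι → ℝ) (k : ι) :
    HasFDerivAt (fun q => D.wf ξ β q k) (fderiv ℝ (fun q => D.wf ξ β q k) p) p :=
  ((contDiffAt_wf hb ξ β k).differentiableAt (by simp)).hasFDerivAt

theorem hasFDerivAt_UNK (hbig : D.Big m (b q)) (hb : HasFDerivAt b B q)
    (hX : HasFDerivAt h hX' (ep (b q), cX (S q) (Θ q)))
    (hY : HasFDerivAt h hY' (ep (b q), cX ((b q).1 k - S q) ((b q).2 k - Θ q)))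
    (hS : HasFDerivAt S S' q) (hΘ : HasFDerivAt Θ Θ' q) (ξ β : ι → ℝ) :
    HasFDerivAt (UNK D h ξ β k b S Θ)
      (UNKD D (h (ep (b q), cX (S q) (Θ q))) (h (ep (b q), cX ((b q).1 k - S q) ((b q).2 k - Θ q)))
        hX' hY' ξ β k (b q) (S q) (Θ q) B S' Θ') q := by
  have hy0 : (b q).1 k ≠ 0 := by
    have := hbig.pos
    have := hbig.le k
    linarith
  exact hasFDerivAt_UN (p := fun q => ep (b q)) (y := fun q => (b q).1 k)
    (α := fun q => (b q).2 k) (w := fun q => D.wf ξ β (b q) k) (c := fun q => cc D ξ β (b q))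
    hy0 hX hY ((hasFDerivAt_ep (b q)).comp q hb) hS hΘ
    ((pY k).hasFDerivAt.comp q hb) ((pA k).hasFDerivAt.comp q hb)
    ((hasFDerivAt_wf hbig ξ β k).comp q hb) ((hasFDerivAt_cc hbig ξ β).comp q hb)

end

/-- the polyhedral part of the derivative -/
def UPK (D : KapData ι) (ξ β : ι → ℝ) (k : ι) (p : Pa ι) (S0 : ℝ) (B : E →L[ℝ] Pa ι)
    (S' Θ' : E →L[ℝ] ℝ) : E →L[ℝ] ℝ :=
  UP (β k) S0 (p.1 k) (D.wf ξ β p k) S' Θ' ((pY k).comp B) ((pA k).comp B)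
      ((fderiv ℝ (fun q => D.wf ξ β q k) p).comp B)

theorem UPK_apply (D : KapData ι) (ξ β : ι → ℝ) (k : ι) (p : Pa ι) (S0 : ℝ) (B : E →L[ℝ] Pa ι)
    (S' Θ' : E →L[ℝ] ℝ) (v : E) :
    UPK D ξ β k p S0 B S' Θ' v =
      (1 - 2 * S0 / p.1 k) * fderiv ℝ (fun q => D.wf ξ β q k) p (B v) -
      2 * D.wf ξ β p k / p.1 k * (S' v - S0 / p.1 k * (B v).1 k) -
      β k / Real.pi * (Θ' v - 1 / 2 * (B v).2 k) := rfl

/-- **derivative minus polyhedral part**, every direction -/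
theorem UNKD_poly_le (a0 : ‖h0‖ ≤ A) (a1 : ‖h1‖ ≤ A) (aX : ‖hX'‖ ≤ A) (aY : ‖hY'‖ ≤ A)
    (hS0 : 0 ≤ S0) (hS1 : S0 ≤ p.1 k) (v : E) :
    |UNKD D h0 h1 hX' hY' ξ β k p S0 Θ0 B S' Θ' v - UPK D ξ β k p S0 B S' Θ' v| ≤
      A * Real.exp (-S0) * (‖cc D ξ β p‖ * (2 * (|S' v| + |Θ' v|) + ‖dep p (B v)‖) +
        ‖ccD D ξ β p (B v)‖) +
      A * Real.exp (-(p.1 k - S0)) * (‖cc D ξ β p‖ * (2 * (|(B v).1 k - S' v| +
        |(B v).2 k - Θ' v|) + ‖dep p (B v)‖) + ‖ccD D ξ β p (B v)‖) := by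
  have hA : 0 ≤ A := (norm_nonneg _).trans a0
  have e0 : UNKD D h0 h1 hX' hY' ξ β k p S0 Θ0 B S' Θ' v - UPK D ξ β k p S0 B S' Θ' v =
      (ZfD h0 hX' (cX S0 Θ0) (cc D ξ β p) ((dep p).comp B) (cX S0 Θ0 • lf S' Θ')
        ((ccD D ξ β p).comp B) v).re -
      (ZfD h1 hY' (cX (p.1 k - S0) (p.2 k - Θ0)) (cc D ξ β p) ((dep p).comp B)
        (cX (p.1 k - S0) (p.2 k - Θ0) • lf ((pY k).comp B - S') ((pA k).comp B - Θ'))
        ((ccD D ξ β p).comp B) v).re := by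
    have : UNKD D h0 h1 hX' hY' ξ β k p S0 Θ0 B S' Θ' v = UPK D ξ β k p S0 B S' Θ' v +
      ((ZfD h0 hX' (cX S0 Θ0) (cc D ξ β p) ((dep p).comp B) (cX S0 Θ0 • lf S' Θ')
        ((ccD D ξ β p).comp B) v).re -
      (ZfD h1 hY' (cX (p.1 k - S0) (p.2 k - Θ0)) (cc D ξ β p) ((dep p).comp B)
        (cX (p.1 k - S0) (p.2 k - Θ0) • lf ((pY k).comp B - S') ((pA k).comp B - Θ'))
        ((ccD D ξ β p).comp B) v).re) := rfl
    rw [this, add_sub_cancel_left]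
  rw [e0]
  have bX : ‖cX S0 Θ0‖ ≤ 1 := by
    rw [norm_cX, Real.exp_le_one_iff]; linarith
  have bY : ‖cX (p.1 k - S0) (p.2 k - Θ0)‖ ≤ 1 := by
    rw [norm_cX, Real.exp_le_one_iff]; linarith
  refine (abs_sub _ _).trans (add_le_add ?_ ?_)
  · refine (Complex.abs_re_le_norm _).trans ((norm_ZfD_le_log a0 aX bX v).trans ?_)
    have h1 := norm_lf_le S' Θ' v
    rw [norm_cX]
    refine mul_le_mul_of_nonneg_left ?_ (by positivity)
    refine add_le_add (mul_le_mul_of_nonneg_left ?_ (norm_nonneg _)) le_rfl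
    exact add_le_add (by linarith) le_rfl
  · refine (Complex.abs_re_le_norm _).trans ((norm_ZfD_le_log a1 aY bY v).trans ?_)
    have h1 := norm_lf_le ((pY k).comp B - S') ((pA k).comp B - Θ') v
    rw [norm_cX]
    refine mul_le_mul_of_nonneg_left ?_ (by positivity)
    refine add_le_add (mul_le_mul_of_nonneg_left ?_ (norm_nonneg _)) le_rfl
    refine add_le_add ?_ le_rfl
    have h2 : |((pY k).comp B - S') v| = |(B v).1 k - S' v| := rfl
    have h3 : |((pA k).comp B - Θ') v| = |(B v).2 k - Θ' v| := rfl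
    rw [h2, h3] at h1
    linarith

/-! ### gap directions: the base does not move -/

/-- first order form in a gap direction -/
theorem UNK_gap_exp (a0 : ‖h0‖ ≤ A) (a1 : ‖h1‖ ≤ A) (aX : ‖hX'‖ ≤ A) (aY : ‖hY'‖ ≤ A)
    (hS0 : 0 ≤ S0) (hS1 : S0 ≤ p.1 k) {v : E} (hv : B v = 0) :
    |UNKD D h0 h1 hX' hY' ξ β k p S0 Θ0 B S' Θ' v -
      (-(2 * D.wf ξ β p k / p.1 k * S' v) - β k / Real.pi * Θ' v)| ≤
      2 * A * ‖cc D ξ β p‖ * (Real.exp (-S0) + Real.exp (-(p.1 k - S0))) *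
        (|S' v| + |Θ' v|) := by
  have h2 := UNKD_poly_le (D := D) (ξ := ξ) (β := β) (Θ0 := Θ0) (B := B) (S' := S') (Θ' := Θ')
    a0 a1 aX aY hS0 hS1 v
  rw [UPK_apply, hv, map_zero, map_zero, map_zero, norm_zero] at h2
  have z1 : (0 : Pa ι).1 k = 0 := rfl
  have z2 : (0 : Pa ι).2 k = 0 := rfl
  have z3 : ‖(0 : ι → ℂ)‖ = 0 := norm_zero
  rw [z1, z2] at h2
  have e1 : (1 - 2 * S0 / p.1 k) * 0 - 2 * D.wf ξ β p k / p.1 k * (S' v - S0 / p.1 k * 0) -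
      β k / Real.pi * (Θ' v - 1 / 2 * 0) =
      -(2 * D.wf ξ β p k / p.1 k * S' v) - β k / Real.pi * Θ' v := by ring
  rw [e1, zero_sub, zero_sub, abs_neg, abs_neg] at h2
  refine h2.trans (le_of_eq ?_)
  ring

theorem abs_div_pi_le (x : ℝ) : |x / Real.pi| ≤ |x| := by
  rw [abs_div, abs_of_pos Real.pi_pos]
  exact div_le_self (abs_nonneg _) (by linarith [Real.pi_gt_three])

/-- **gap direction**, bound -/
theorem UNK_gap [Nonempty ι] (hb : D.Big m p) (hΛ : ∀ k, |p.2 k| ≤ Λ) (a0 : ‖h0‖ ≤ A)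
    (a1 : ‖h1‖ ≤ A) (aX : ‖hX'‖ ≤ A) (aY : ‖hY'‖ ≤ A) (hS0 : 0 ≤ S0) (hS1 : S0 ≤ p.1 k)
    (ξ β : ι → ℝ) {v : E} (hv : B v = 0) :
    |UNKD D h0 h1 hX' hY' ξ β k p S0 Θ0 B S' Θ' v| ≤
      (|β k| + D.A0 Λ * sz ξ β * (2 / p.1 k + A * (Real.exp (-S0) +
        Real.exp (-(p.1 k - S0))))) * (|S' v| + |Θ' v|) := by
  have hA : 0 ≤ A := (norm_nonneg _).trans a0
  obtain ⟨hm, hZ, hβ, hc⟩ := nums hb hΛ ξ β
  have hk := hb.le k
  have hk0 : 0 < p.1 k := by linarith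
  have hw := (bounds_v hb hΛ ξ β).2.1 k
  have h2 := UNK_gap_exp (D := D) (ξ := ξ) (β := β) (Θ0 := Θ0) (B := B) (S' := S') (Θ' := Θ')
    a0 a1 aX aY hS0 hS1 hv
  set Z := D.A0 Λ * sz ξ β
  set t := Real.exp (-S0) + Real.exp (-(p.1 k - S0))
  have ht : 0 ≤ t := add_nonneg (Real.exp_pos _).le (Real.exp_pos _).le
  have h3 := abs_add_le (-(2 * D.wf ξ β p k / p.1 k * S' v) - β k / Real.pi * Θ' v)
    (UNKD D h0 h1 hX' hY' ξ β k p S0 Θ0 B S' Θ' v -
      (-(2 * D.wf ξ β p k / p.1 k * S' v) - β k / Real.pi * Θ' v))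
  rw [add_sub_cancel] at h3
  have h4 : |-(2 * D.wf ξ β p k / p.1 k * S' v) - β k / Real.pi * Θ' v| ≤
      (2 * Z / p.1 k + |β k|) * (|S' v| + |Θ' v|) := by
    refine (abs_sub _ _).trans ?_
    rw [abs_neg, abs_mul, abs_mul]
    have e1 : |2 * D.wf ξ β p k / p.1 k| ≤ 2 * Z / p.1 k := by
      rw [abs_div, abs_of_pos hk0, abs_mul, abs_two]
      exact div_le_div_of_nonneg_right (by linarith) hk0.le
    have e2 := abs_div_pi_le (β k)
    have e3 : 0 ≤ 2 * Z / p.1 k := by positivity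
    have f1 := mul_le_mul_of_nonneg_right e1 (abs_nonneg (S' v))
    have f2 := mul_le_mul_of_nonneg_right e2 (abs_nonneg (Θ' v))
    have f3 := mul_nonneg e3 (abs_nonneg (Θ' v))
    have f4 := mul_nonneg (abs_nonneg (β k)) (abs_nonneg (S' v))
    calc _ ≤ 2 * Z / p.1 k * |S' v| + |β k| * |Θ' v| := add_le_add f1 f2
      _ ≤ _ := by linarith
  have h5 : 2 * A * ‖cc D ξ β p‖ * t * (|S' v| + |Θ' v|) ≤
      Z * (A * t) * (|S' v| + |Θ' v|) := by
    refine mul_le_mul_of_nonneg_right ?_ (by positivity)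
    have : 2 * A * ‖cc D ξ β p‖ * t ≤ 2 * A * (Z / 5) * t :=
      mul_le_mul_of_nonneg_right (mul_le_mul_of_nonneg_left hc (by positivity)) ht
    have h6 : 0 ≤ Z * (A * t) := by positivity
    calc _ ≤ 2 * A * (Z / 5) * t := this
      _ = 2 / 5 * (Z * (A * t)) := by ring
      _ ≤ 1 * (Z * (A * t)) := mul_le_mul_of_nonneg_right (by norm_num) h6
      _ = _ := one_mul _
  calc _ ≤ (2 * Z / p.1 k + |β k|) * (|S' v| + |Θ' v|) +
        Z * (A * t) * (|S' v| + |Θ' v|) := by linarith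
    _ = _ := by ring

/-- **gap direction, `β = 0`** -/
theorem UNK_gap_alpha [Nonempty ι] (hb : D.Big m p) (a0 : ‖h0‖ ≤ A)
    (a1 : ‖h1‖ ≤ A) (aX : ‖hX'‖ ≤ A) (aY : ‖hY'‖ ≤ A) (hS0 : 0 ≤ S0) (hS1 : S0 ≤ p.1 k)
    (ξ : ι → ℝ) {v : E} (hv : B v = 0) :
    |UNKD D h0 h1 hX' hY' ξ 0 k p S0 Θ0 B S' Θ' v| ≤
        (8 + 32 * A) * wa ξ p * (|S' v| + |Θ' v|) ∧
      |UNKD D h0 h1 hX' hY' ξ 0 k p S0 Θ0 B S' Θ' v| ≤ 8 * wa ξ p * |S' v| +
        16 * A * wa ξ p * (Real.exp (-S0) + Real.exp (-(p.1 k - S0))) *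
          (|S' v| + |Θ' v|) := by
  have hA : 0 ≤ A := (norm_nonneg _).trans a0
  have hm := hb.pos
  have hk := hb.le k
  have hk0 : 0 < p.1 k := by linarith
  have hwa := wa_nonneg hb ξ
  have hw := (alpha0 hb ξ).2.2.2 k
  have hc := cc_alpha hb ξ
  have h2 := UNK_gap_exp (D := D) (ξ := ξ) (β := 0) (Θ0 := Θ0) (B := B) (S' := S') (Θ' := Θ')
    a0 a1 aX aY hS0 hS1 hv
  set W := wa ξ p
  set t := Real.exp (-S0) + Real.exp (-(p.1 k - S0))
  have ht : 0 ≤ t := add_nonneg (Real.exp_pos _).le (Real.exp_pos _).le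
  have ht2 : t ≤ 2 := by
    have t1 : Real.exp (-S0) ≤ 1 := Real.exp_le_one_iff.2 (by linarith)
    have t2 : Real.exp (-(p.1 k - S0)) ≤ 1 := Real.exp_le_one_iff.2 (by linarith)
    linarith
  have h3 := abs_add_le (-(2 * D.wf ξ 0 p k / p.1 k * S' v) -
      (0 : ι → ℝ) k / Real.pi * Θ' v)
    (UNKD D h0 h1 hX' hY' ξ 0 k p S0 Θ0 B S' Θ' v -
      (-(2 * D.wf ξ 0 p k / p.1 k * S' v) - (0 : ι → ℝ) k / Real.pi * Θ' v))
  rw [add_sub_cancel] at h3
  have h4 : |-(2 * D.wf ξ 0 p k / p.1 k * S' v) - (0 : ι → ℝ) k / Real.pi * Θ' v| ≤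
      8 * W * |S' v| := by
    rw [Pi.zero_apply, zero_div, zero_mul, sub_zero, abs_neg, abs_mul]
    refine mul_le_mul_of_nonneg_right ?_ (abs_nonneg _)
    rw [abs_div, abs_of_pos hk0, abs_mul, abs_two, div_le_iff₀ hk0]
    linarith
  have h5 : 2 * A * ‖cc D ξ 0 p‖ * t * (|S' v| + |Θ' v|) ≤
      16 * A * W * t * (|S' v| + |Θ' v|) := by
    refine mul_le_mul_of_nonneg_right ?_ (by positivity)
    refine mul_le_mul_of_nonneg_right ?_ ht
    calc 2 * A * ‖cc D ξ 0 p‖ ≤ 2 * A * (8 * W) := mul_le_mul_of_nonneg_left hc (by positivity)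
      _ = _ := by ring
  have h6 : |UNKD D h0 h1 hX' hY' ξ 0 k p S0 Θ0 B S' Θ' v| ≤ 8 * W * |S' v| +
      16 * A * W * t * (|S' v| + |Θ' v|) := by linarith
  refine ⟨h6.trans ?_, h6⟩
  have h7 : 16 * A * W * t * (|S' v| + |Θ' v|) ≤ 16 * A * W * 2 * (|S' v| + |Θ' v|) :=
    mul_le_mul_of_nonneg_right (mul_le_mul_of_nonneg_left ht2 (by positivity)) (by positivity)
  have h8 : 0 ≤ 8 * W * |Θ' v| := by positivity
  calc _ ≤ 8 * W * |S' v| + 16 * A * W * 2 * (|S' v| + |Θ' v|) := by linarith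
    _ ≤ (8 * W * |S' v| + 8 * W * |Θ' v|) + 16 * A * W * 2 * (|S' v| + |Θ' v|) := by linarith
    _ = _ := by ring

/-! ### base directions -/

section base

/-- first order form in any direction -/
theorem UNK_base_exp (a0 : ‖h0‖ ≤ A) (a1 : ‖h1‖ ≤ A) (aX : ‖hX'‖ ≤ A) (aY : ‖hY'‖ ≤ A)
    (hS0 : 0 ≤ S0) (hS1 : S0 ≤ p.1 k) (v : E) :
    |UNKD D h0 h1 hX' hY' ξ β k p S0 Θ0 B S' Θ' v - UPK D ξ β k p S0 B S' Θ' v| ≤
      2 * A * ‖cc D ξ β p‖ * (Real.exp (-S0) * (|S' v| + |Θ' v|) +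
        Real.exp (-(p.1 k - S0)) * (|(B v).1 k - S' v| + |(B v).2 k - Θ' v|)) +
      2 * A * (‖cc D ξ β p‖ * ‖dep p (B v)‖ + ‖ccD D ξ β p (B v)‖) := by
  have hA : 0 ≤ A := (norm_nonneg _).trans a0
  have h2 := UNKD_poly_le (D := D) (ξ := ξ) (β := β) (Θ0 := Θ0) (B := B) (S' := S') (Θ' := Θ')
    a0 a1 aX aY hS0 hS1 v
  have t1 : Real.exp (-S0) ≤ 1 := Real.exp_le_one_iff.2 (by linarith)
  have t2 : Real.exp (-(p.1 k - S0)) ≤ 1 := Real.exp_le_one_iff.2 (by linarith)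
  set c := ‖cc D ξ β p‖
  set d := ‖dep p (B v)‖
  set c' := ‖ccD D ξ β p (B v)‖
  set X := Real.exp (-S0)
  set Y := Real.exp (-(p.1 k - S0))
  set a := |S' v| + |Θ' v|
  set a' := |(B v).1 k - S' v| + |(B v).2 k - Θ' v|
  have h3 : (X + Y) * (A * (c * d + c')) ≤ 2 * (A * (c * d + c')) :=
    mul_le_mul_of_nonneg_right (by linarith) (by positivity)
  calc _ ≤ A * X * (c * (2 * a + d) + c') + A * Y * (c * (2 * a' + d) + c') := h2
    _ = 2 * A * c * (X * a + Y * a') + (X + Y) * (A * (c * d + c')) := by ring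
    _ ≤ 2 * A * c * (X * a + Y * a') + 2 * (A * (c * d + c')) := by linarith
    _ = _ := by ring

theorem mul_exp_add_le {s e : ℝ} (hs : 0 ≤ s) (he : 0 ≤ e) :
    Real.exp (-s) * (s + e) ≤ 1 + e := by
  have h1 := Real.add_one_le_exp s
  have h2 : s * Real.exp (-s) ≤ 1 := by
    have h3 := mul_le_mul_of_nonneg_right (by linarith : s ≤ Real.exp s) (Real.exp_pos (-s)).le
    rw [← Real.exp_add, add_neg_cancel, Real.exp_zero] at h3
    exact h3
  have h4 : Real.exp (-s) ≤ 1 := Real.exp_le_one_iff.2 (by linarith)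
  have h5 := mul_le_mul_of_nonneg_right h4 he
  rw [mul_add]
  linarith

/-- the moving part in the Euler direction -/
theorem eul_part {y s e1 σ : ℝ} (hs0 : 0 ≤ s) (hs1 : s ≤ y) (hy : 0 < y) (he : 0 ≤ e1)
    (hσ : |σ - s / y| ≤ e1 / y) :
    Real.exp (-s) * |σ| + Real.exp (-(y - s)) * |1 - σ| ≤ 2 * (1 + e1) / y := by
  have h1 : |σ| ≤ (s + e1) / y := by
    have h := abs_add_le (σ - s / y) (s / y)
    rw [sub_add_cancel, abs_of_nonneg (div_nonneg hs0 hy.le)] at h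
    rw [add_div]
    linarith
  have h2 : |1 - σ| ≤ (y - s + e1) / y := by
    have h := abs_sub (1 - s / y) (σ - s / y)
    have e0 : 1 - s / y - (σ - s / y) = 1 - σ := by ring
    have e2 : 1 - s / y = (y - s) / y := by field_simp
    rw [e0, e2, abs_of_nonneg (div_nonneg (by linarith) hy.le)] at h
    rw [add_div]
    linarith
  have h3 := mul_exp_add_le hs0 he
  have h4 := mul_exp_add_le (sub_nonneg.2 hs1) he
  calc Real.exp (-s) * |σ| + Real.exp (-(y - s)) * |1 - σ|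
      ≤ Real.exp (-s) * ((s + e1) / y) + Real.exp (-(y - s)) * ((y - s + e1) / y) :=
        add_le_add (mul_le_mul_of_nonneg_left h1 (Real.exp_pos _).le)
          (mul_le_mul_of_nonneg_left h2 (Real.exp_pos _).le)
    _ = (Real.exp (-s) * (s + e1) + Real.exp (-(y - s)) * (y - s + e1)) / y := by ring
    _ ≤ ((1 + e1) + (1 + e1)) / y := div_le_div_of_nonneg_right (add_le_add h3 h4) hy.le
    _ = _ := by ring

variable [DecidableEq ι]

omit [Fintype ι] in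
theorem ey_fst (k l : ι) : (ey l : Pa ι).1 k = if k = l then 1 else 0 := by
  by_cases h : k = l
  · subst h; simp [ey]
  · simp [ey, h]

omit [Fintype ι] in
theorem ey_snd (k l : ι) : (ey l : Pa ι).2 k = 0 := rfl

omit [Fintype ι] in
theorem ea_fst (k l : ι) : (ea l : Pa ι).1 k = 0 := rfl

omit [Fintype ι] in
theorem ea_snd (k l : ι) : (ea l : Pa ι).2 k = if k = l then 1 else 0 := by
  by_cases h : k = l
  · subst h; simp [ea]
  · simp [ea, h]

omit [Fintype ι] in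
/-- the moving part in a direction `ey l`: Euler vector in the own neck, rigid otherwise -/
theorem eul_part' (hS0 : 0 ≤ S0) (hS1 : S0 ≤ p.1 k) (hk0 : ∀ k, 0 < p.1 k) {e1 : ℝ}
    (he : 0 ≤ e1)
    {v : E} (hv : B v = ey l) (hΘ : Θ' v = 0)
    (hσ : |S' v - if k = l then S0 / p.1 k else 0| ≤ if k = l then e1 / p.1 k else 0) :
    Real.exp (-S0) * (|S' v| + |Θ' v|) + Real.exp (-(p.1 k - S0)) *
      (|(B v).1 k - S' v| + |(B v).2 k - Θ' v|) ≤ 2 * (1 + e1) / p.1 l := by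
  rw [hv, ey_fst, ey_snd, hΘ, sub_zero, abs_zero, add_zero, add_zero]
  by_cases h : k = l
  · subst h
    rw [if_pos rfl, if_pos rfl] at hσ
    rw [if_pos rfl]
    exact eul_part hS0 hS1 (hk0 k) he hσ
  · rw [if_neg h, if_neg h] at hσ
    rw [if_neg h]
    have h1 : S' v = 0 := by
      have := abs_nonpos_iff.1 hσ
      linarith
    rw [h1, sub_zero, abs_zero, mul_zero, mul_zero, add_zero]
    have := hk0 l
    positivity

/-- the polyhedral part in a direction `ey l` -/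
theorem UPK_y_le (hk0 : ∀ k, 0 < p.1 k) {e1 : ℝ}
    {v : E} (hv : B v = ey l) (hΘ : Θ' v = 0)
    (hσ : |S' v - if k = l then S0 / p.1 k else 0| ≤ if k = l then e1 / p.1 k else 0) :
    |UPK D ξ β k p S0 B S' Θ' v - (1 - 2 * S0 / p.1 k) *
      fderiv ℝ (fun q => D.wf ξ β q k) p (ey l)| ≤
      if k = l then 2 * |D.wf ξ β p k| / p.1 k * (e1 / p.1 k) else 0 := by
  rw [UPK_apply, hv, hΘ, ey_fst, ey_snd]
  have h1 : (1 - 2 * S0 / p.1 k) * fderiv ℝ (fun q => D.wf ξ β q k) p (ey l) -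
      2 * D.wf ξ β p k / p.1 k * (S' v - S0 / p.1 k * if k = l then 1 else 0) -
      β k / Real.pi * (0 - 1 / 2 * 0) - (1 - 2 * S0 / p.1 k) *
      fderiv ℝ (fun q => D.wf ξ β q k) p (ey l) =
      -(2 * D.wf ξ β p k / p.1 k * (S' v - if k = l then S0 / p.1 k else 0)) := by
    split_ifs <;> ring
  rw [h1, abs_neg, abs_mul, abs_div, abs_of_pos (hk0 k), abs_mul, abs_two]
  have h2 : 0 ≤ 2 * |D.wf ξ β p k| / p.1 k := by
    have := hk0 k
    positivity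
  refine (mul_le_mul_of_nonneg_left hσ h2).trans (le_of_eq ?_)
  split_ifs
  · rfl
  · rw [mul_zero]

omit [Fintype ι] [DecidableEq ι] in
theorem abs_one_sub_le (hS0 : 0 ≤ S0) (hS1 : S0 ≤ p.1 k) (hk0 : 0 < p.1 k) :
    |1 - 2 * S0 / p.1 k| ≤ 1 := by
  have g1 : 0 ≤ S0 / p.1 k := div_nonneg hS0 hk0.le
  have g2 : S0 / p.1 k ≤ 1 := (div_le_one hk0).2 hS1
  have g3 : 2 * S0 / p.1 k = 2 * (S0 / p.1 k) := by ring
  rw [abs_le, g3]
  constructor <;> linarith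

variable [Nonempty ι]

/-- **direction `y l`** (Euler vector in the neck `l`) -/
theorem UNK_y (hb : D.Big m p) (hΛ : ∀ k, |p.2 k| ≤ Λ) (a0 : ‖h0‖ ≤ A)
    (a1 : ‖h1‖ ≤ A) (aX : ‖hX'‖ ≤ A) (aY : ‖hY'‖ ≤ A) (hS0 : 0 ≤ S0) (hS1 : S0 ≤ p.1 k)
    (ξ β : ι → ℝ) {e1 : ℝ} (he : 0 ≤ e1) {v : E} (hv : B v = ey l) (hΘ : Θ' v = 0)
    (hσ : |S' v - if k = l then S0 / p.1 k else 0| ≤ if k = l then e1 / p.1 k else 0) :
    |UNKD D h0 h1 hX' hY' ξ β k p S0 Θ0 B S' Θ' v| ≤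
      (1 + e1) * (1 + 3 * A) * (D.A0 Λ * sz ξ β) / p.1 l := by
  have hA : 0 ≤ A := (norm_nonneg _).trans a0
  obtain ⟨hm, hZ, hβ, hc⟩ := nums hb hΛ ξ β
  have hk0 : ∀ k, 0 < p.1 k := fun k => by
    have := hb.le k
    linarith
  have hl := hb.le l
  have hl0 := hk0 l
  have hw := (bounds_v hb hΛ ξ β).2.1 k
  have hw' := (bounds_y hb hΛ ξ β l).2.1 k
  have hx' := norm_xx_y hb hΛ ξ β l
  have hd := (norm_dep_ey p l).trans (exp_le_inv (by linarith : 8 ≤ p.1 l))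
  have h2 := UNK_base_exp (D := D) (ξ := ξ) (β := β) (Θ0 := Θ0) (B := B) (S' := S') (Θ' := Θ')
    a0 a1 aX aY hS0 hS1 v
  have h3 := eul_part' (B := B) (S' := S') (Θ' := Θ') hS0 hS1 hk0 he hv hΘ hσ
  have h4 := UPK_y_le (D := D) (ξ := ξ) (β := β) (B := B) (S' := S') (Θ' := Θ') hk0
    hv hΘ hσ
  have h5 := abs_one_sub_le hS0 hS1 (hk0 k)
  have h6 := norm_ccD_le D ξ β p (B v)
  rw [hv] at h2 h6 h3
  set Z := D.A0 Λ * sz ξ β
  set y := p.1 l
  -- polyhedral part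
  have p1 : |(1 - 2 * S0 / p.1 k) * fderiv ℝ (fun q => D.wf ξ β q k) p (ey l)| ≤ Z / y := by
    rw [abs_mul]
    calc |1 - 2 * S0 / p.1 k| * |fderiv ℝ (fun q => D.wf ξ β q k) p (ey l)|
        ≤ 1 * (Z * (m / y ^ 2)) := mul_le_mul h5 hw' (abs_nonneg _) zero_le_one
      _ = (m / y) * (Z / y) := by ring
      _ ≤ 1 * (Z / y) := mul_le_mul_of_nonneg_right ((div_le_one hl0).2 hl) (by positivity)
      _ = _ := one_mul _
  have p2 : (if k = l then 2 * |D.wf ξ β p k| / p.1 k * (e1 / p.1 k) else 0) ≤ e1 * Z / y := by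
    split_ifs with hkl
    · subst hkl
      have q1 : 2 * |D.wf ξ β p k| / p.1 k ≤ Z := by
        rw [div_le_iff₀ (hk0 k)]
        nlinarith
      calc 2 * |D.wf ξ β p k| / p.1 k * (e1 / p.1 k) ≤ Z * (e1 / p.1 k) :=
            mul_le_mul_of_nonneg_right q1 (by positivity)
        _ = _ := by ring
    · positivity
  have p3 : |UPK D ξ β k p S0 B S' Θ' v| ≤ (1 + e1) * Z / y := by
    have := abs_add_le ((1 - 2 * S0 / p.1 k) * fderiv ℝ (fun q => D.wf ξ β q k) p (ey l))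
      (UPK D ξ β k p S0 B S' Θ' v - (1 - 2 * S0 / p.1 k) *
      fderiv ℝ (fun q => D.wf ξ β q k) p (ey l))
    rw [add_sub_cancel] at this
    calc _ ≤ Z / y + e1 * Z / y := by linarith
      _ = _ := by ring
  -- error part
  have r1 : 2 * A * ‖cc D ξ β p‖ * (Real.exp (-S0) * (|S' v| + |Θ' v|) +
      Real.exp (-(p.1 k - S0)) * (|(ey l : Pa ι).1 k - S' v| + |(ey l : Pa ι).2 k - Θ' v|)) ≤
      (1 + e1) * (A * Z / y) := by
    calc _ ≤ 2 * A * (Z / 5) * (2 * (1 + e1) / y) := by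
          refine mul_le_mul (mul_le_mul_of_nonneg_left hc (by positivity)) h3 ?_ (by positivity)
          have := Real.exp_pos (-S0)
          have := Real.exp_pos (-(p.1 k - S0))
          positivity
      _ = 4 / 5 * ((1 + e1) * (A * Z / y)) := by ring
      _ ≤ 1 * ((1 + e1) * (A * Z / y)) :=
          mul_le_mul_of_nonneg_right (by norm_num) (by positivity)
      _ = _ := one_mul _
  have r2 : 2 * A * (‖cc D ξ β p‖ * ‖dep p (ey l)‖ + ‖ccD D ξ β p (ey l)‖) ≤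
      2 * (A * Z / y) := by
    have s1 : ‖cc D ξ β p‖ * ‖dep p (ey l)‖ ≤ Z / 5 * (1 / y) :=
      mul_le_mul hc hd (norm_nonneg _) (by positivity)
    have s2 : ‖ccD D ξ β p (ey l)‖ ≤ Z / y / 2 := by
      refine h6.trans (hx'.trans ?_)
      have : 4 * Z / y ^ 2 = 4 / y * (Z / y) := by ring
      rw [this]
      have q2 : 4 / y ≤ 1 / 2 := by
        rw [div_le_div_iff₀ hl0 (by norm_num)]
        linarith
      calc 4 / y * (Z / y) ≤ 1 / 2 * (Z / y) := mul_le_mul_of_nonneg_right q2 (by positivity)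
        _ = _ := by ring
    calc _ ≤ 2 * A * (Z / 5 * (1 / y) + Z / y / 2) :=
          mul_le_mul_of_nonneg_left (add_le_add s1 s2) (by positivity)
      _ = 7 / 5 * (A * Z / y) := by ring
      _ ≤ 2 * (A * Z / y) := mul_le_mul_of_nonneg_right (by norm_num) (by positivity)
  have h7 := abs_add_le (UPK D ξ β k p S0 B S' Θ' v)
    (UNKD D h0 h1 hX' hY' ξ β k p S0 Θ0 B S' Θ' v - UPK D ξ β k p S0 B S' Θ' v)
  rw [add_sub_cancel] at h7
  have h8 : 0 ≤ e1 * (A * Z / y) := by positivity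
  calc _ ≤ (1 + e1) * Z / y + ((1 + e1) * (A * Z / y) + 2 * (A * Z / y)) := by linarith
    _ ≤ (1 + e1) * Z / y + ((1 + e1) * (A * Z / y) + 2 * (A * Z / y)) +
        2 * (e1 * (A * Z / y)) := by linarith
    _ = _ := by ring

/-- **direction `y l`, `β = 0`** -/
theorem UNK_y_alpha (hb : D.Big m p) (a0 : ‖h0‖ ≤ A)
    (a1 : ‖h1‖ ≤ A) (aX : ‖hX'‖ ≤ A) (aY : ‖hY'‖ ≤ A) (hS0 : 0 ≤ S0) (hS1 : S0 ≤ p.1 k)
    (ξ : ι → ℝ) {e1 : ℝ} (he : 0 ≤ e1) {v : E} (hv : B v = ey l) (hΘ : Θ' v = 0)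
    (hσ : |S' v - if k = l then S0 / p.1 k else 0| ≤ if k = l then e1 / p.1 k else 0) :
    |UNKD D h0 h1 hX' hY' ξ 0 k p S0 Θ0 B S' Θ' v| ≤
      (1 + e1) * (A2 D + 8) * (1 + 8 * A) * wa ξ p * (m / p.1 l) := by
  have hA : 0 ≤ A := (norm_nonneg _).trans a0
  have hm := hb.pos
  have hk0 : ∀ k, 0 < p.1 k := fun k => by
    have := hb.le k
    linarith
  have hl := hb.le l
  have hl0 := hk0 l
  have hW := wa_nonneg hb ξ
  have hA2 := one_le_A2 D
  have hw := (alpha0 hb ξ).2.2.2 k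
  have hc := cc_alpha hb ξ
  obtain ⟨-, hw', hx'⟩ := alpha_y hb ξ l
  have hw' := hw' k
  have hd := (norm_dep_ey p l).trans (exp_le_inv (by linarith : 8 ≤ p.1 l))
  have h2 := UNK_base_exp (D := D) (ξ := ξ) (β := 0) (Θ0 := Θ0) (B := B) (S' := S') (Θ' := Θ')
    a0 a1 aX aY hS0 hS1 v
  have h3 := eul_part' (B := B) (S' := S') (Θ' := Θ') hS0 hS1 hk0 he hv hΘ hσ
  have h4 := UPK_y_le (D := D) (ξ := ξ) (β := 0) (B := B) (S' := S') (Θ' := Θ') hk0
    hv hΘ hσ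
  have h5 := abs_one_sub_le hS0 hS1 (hk0 k)
  have h6 := norm_ccD_le D ξ 0 p (B v)
  rw [hv] at h2 h6 h3
  set W := wa ξ p
  set a := A2 D
  set y := p.1 l
  have hmy : W / y ≤ W * (m / y) := by
    have : W * (m / y) = m * (W / y) := by ring
    rw [this]
    exact le_mul_of_one_le_left (by positivity) (by linarith)
  have p1 : |(1 - 2 * S0 / p.1 k) * fderiv ℝ (fun q => D.wf ξ 0 q k) p (ey l)| ≤
      a * (W * (m / y)) := by
    rw [abs_mul]
    calc |1 - 2 * S0 / p.1 k| * |fderiv ℝ (fun q => D.wf ξ 0 q k) p (ey l)|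
        ≤ 1 * (a * W * (m / y)) := mul_le_mul h5 hw' (abs_nonneg _) zero_le_one
      _ = _ := by ring
  have p2 : (if k = l then 2 * |D.wf ξ 0 p k| / p.1 k * (e1 / p.1 k) else 0) ≤
      8 * e1 * (W * (m / y)) := by
    split_ifs with hkl
    · subst hkl
      have q1 : 2 * |D.wf ξ 0 p k| / p.1 k ≤ 8 * W := by
        rw [div_le_iff₀ (hk0 k)]
        linarith
      calc 2 * |D.wf ξ 0 p k| / p.1 k * (e1 / p.1 k) ≤ 8 * W * (e1 / p.1 k) :=
            mul_le_mul_of_nonneg_right q1 (by positivity)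
        _ = 8 * e1 * (W / y) := by ring
        _ ≤ _ := mul_le_mul_of_nonneg_left hmy (by positivity)
    · positivity
  have r1 : 2 * A * ‖cc D ξ 0 p‖ * (Real.exp (-S0) * (|S' v| + |Θ' v|) +
      Real.exp (-(p.1 k - S0)) * (|(ey l : Pa ι).1 k - S' v| + |(ey l : Pa ι).2 k - Θ' v|)) ≤
      32 * (1 + e1) * A * (W * (m / y)) := by
    calc _ ≤ 2 * A * (8 * W) * (2 * (1 + e1) / y) := by
          refine mul_le_mul (mul_le_mul_of_nonneg_left hc (by positivity)) h3 ?_ (by positivity)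
          have := Real.exp_pos (-S0)
          have := Real.exp_pos (-(p.1 k - S0))
          positivity
      _ = 32 * (1 + e1) * A * (W / y) := by ring
      _ ≤ _ := mul_le_mul_of_nonneg_left hmy (by positivity)
  have r2 : 2 * A * (‖cc D ξ 0 p‖ * ‖dep p (ey l)‖ + ‖ccD D ξ 0 p (ey l)‖) ≤
      (4 * a + 32) * A * (W * (m / y)) := by
    have s1 : ‖cc D ξ 0 p‖ * ‖dep p (ey l)‖ ≤ 8 * W * (1 / y) :=
      mul_le_mul hc hd (norm_nonneg _) (by positivity)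
    have s2 : ‖ccD D ξ 0 p (ey l)‖ ≤ (2 * a + 8) * W / y := h6.trans hx'
    calc _ ≤ 2 * A * (8 * W * (1 / y) + (2 * a + 8) * W / y) :=
          mul_le_mul_of_nonneg_left (add_le_add s1 s2) (by positivity)
      _ = (4 * a + 32) * A * (W / y) := by ring
      _ ≤ _ := mul_le_mul_of_nonneg_left hmy (by positivity)
  have h7 := abs_add_le (UPK D ξ 0 k p S0 B S' Θ' v)
    (UNKD D h0 h1 hX' hY' ξ 0 k p S0 Θ0 B S' Θ' v - UPK D ξ 0 k p S0 B S' Θ' v)
  rw [add_sub_cancel] at h7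
  have h8 := abs_add_le ((1 - 2 * S0 / p.1 k) * fderiv ℝ (fun q => D.wf ξ 0 q k) p (ey l))
      (UPK D ξ 0 k p S0 B S' Θ' v - (1 - 2 * S0 / p.1 k) *
      fderiv ℝ (fun q => D.wf ξ 0 q k) p (ey l))
  rw [add_sub_cancel] at h8
  set T := W * (m / y)
  have hT : 0 ≤ T := by positivity
  have hpos : 0 ≤ (e1 * a + 4 * A * a + 8 * e1 * A * a + 32 * e1 * A) * T := by positivity
  calc |UNKD D h0 h1 hX' hY' ξ 0 k p S0 Θ0 B S' Θ' v|
      ≤ a * T + 8 * e1 * T + (32 * (1 + e1) * A * T + (4 * a + 32) * A * T) := by linarith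
    _ ≤ a * T + 8 * e1 * T + (32 * (1 + e1) * A * T + (4 * a + 32) * A * T) + 8 * T +
        (e1 * a + 4 * A * a + 8 * e1 * A * a + 32 * e1 * A) * T := by linarith
    _ = (1 + e1) * (a + 8) * (1 + 8 * A) * T := by ring
    _ = _ := by simp only [T]; ring

omit [Nonempty ι] in
/-- the polyhedral part in a direction `ea l` -/
theorem UPK_a {v : E} (hv : B v = ea l) (hS : S' v = 0) :
    UPK D ξ β k p S0 B S' Θ' v =
      (1 - 2 * S0 / p.1 k) * fderiv ℝ (fun q => D.wf ξ β q k) p (ea l) -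
      β k / Real.pi * (Θ' v - if k = l then 1 / 2 else 0) := by
  rw [UPK_apply, hv, hS, ea_fst, ea_snd]
  split_ifs <;> ring

/-- **direction `α l`** -/
theorem UNK_a (hb : D.Big m p) (hΛ : ∀ k, |p.2 k| ≤ Λ) (a0 : ‖h0‖ ≤ A)
    (a1 : ‖h1‖ ≤ A) (aX : ‖hX'‖ ≤ A) (aY : ‖hY'‖ ≤ A) (hS0 : 0 ≤ S0) (hS1 : S0 ≤ p.1 k)
    (ξ β : ι → ℝ) {e2 : ℝ} (he : 0 ≤ e2) {v : E} (hv : B v = ea l) (hS : S' v = 0)
    (hθ : |Θ' v - if k = l then 1 / 2 else 0| ≤ if k = l then 1 / 2 else 0)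
    (hT : Real.exp (-S0) * |Θ' v| + Real.exp (-(p.1 k - S0)) *
      |(if k = l then 1 else 0) - Θ' v| ≤ e2 / p.1 l) :
    |UNKD D h0 h1 hX' hY' ξ β k p S0 Θ0 B S' Θ' v| ≤
      (2 + A * (2 + e2)) * (|β l| + D.A0 Λ * sz ξ β / p.1 l) := by
  have hA : 0 ≤ A := (norm_nonneg _).trans a0
  obtain ⟨hm, hZ, hβ, hc⟩ := nums hb hΛ ξ β
  have hk0 : ∀ k, 0 < p.1 k := fun k => by
    have := hb.le k
    linarith
  have hl := hb.le l
  have hl0 := hk0 l
  obtain ⟨-, -, -, hw4⟩ := bounds_a hb hΛ ξ β l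
  have hd := (norm_dep_ea p l).trans (exp_le_inv (by linarith : 8 ≤ p.1 l))
  have h2 := UNK_base_exp (D := D) (ξ := ξ) (β := β) (Θ0 := Θ0) (B := B) (S' := S') (Θ' := Θ')
    a0 a1 aX aY hS0 hS1 v
  have h5 := abs_one_sub_le hS0 hS1 (hk0 k)
  have h6 := norm_ccD_le D ξ β p (B v)
  have hr : ∀ j, |rr p.1 l - if j = l then 1 else 0| ≤ 1 := by
    intro j
    have r0 := (rr_pos hk0 l).le
    have r1 := rr_le_one hk0 l
    split_ifs
    · rw [abs_le]; constructor <;> linarith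
    · rw [sub_zero, abs_of_nonneg r0]; exact r1
  have hw : ∀ j, |fderiv ℝ (fun q => D.wf ξ β q j) p (ea l)| ≤
      |β l| + D.A0 Λ * sz ξ β / p.1 l := by
    intro j
    have g1 := abs_add_le ((rr p.1 l - if j = l then 1 else 0) * (β l / (2 * Real.pi)))
      (fderiv ℝ (fun q => D.wf ξ β q j) p (ea l) -
        (rr p.1 l - if j = l then 1 else 0) * (β l / (2 * Real.pi)))
    rw [add_sub_cancel] at g1
    have g2 : |(rr p.1 l - if j = l then 1 else 0) * (β l / (2 * Real.pi))| ≤ |β l| := by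
      rw [abs_mul]
      have g3 : |β l / (2 * Real.pi)| ≤ |β l| := by
        rw [abs_div, abs_of_pos (by positivity : (0 : ℝ) < 2 * Real.pi)]
        exact div_le_self (abs_nonneg _) (by linarith [Real.pi_gt_three])
      calc _ ≤ 1 * |β l| := mul_le_mul (hr j) g3 (abs_nonneg _) zero_le_one
        _ = _ := one_mul _
    have := hw4 j
    linarith
  rw [hv] at h2 h6
  rw [ea_fst, ea_snd, hS, sub_zero, abs_zero, zero_add, zero_add] at h2
  rw [UPK_a hv hS] at h2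
  set Z := D.A0 Λ * sz ξ β
  set y := p.1 l
  set G := |β l| + Z / y
  have hG : 0 ≤ G := by positivity
  have hZG : Z / y ≤ G := le_add_of_nonneg_left (abs_nonneg _)
  have hx' : ‖ccD D ξ β p (ea l)‖ ≤ G / 4 := by
    refine h6.trans ?_
    rw [pi_norm_le_iff_of_nonneg (by positivity)]
    intro j
    have hj0 := hk0 j
    have hj := hb.le j
    rw [fderiv_xx hb ξ β (ea l) j, ea_fst, zero_div, zero_mul, sub_zero, Real.norm_eq_abs,
      abs_mul, abs_of_pos (by positivity)]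
    calc 2 / p.1 j * |fderiv ℝ (fun q => D.wf ξ β q j) p (ea l)| ≤ 1 / 4 * G := by
          refine mul_le_mul ?_ (hw j) (abs_nonneg _) (by norm_num)
          rw [div_le_div_iff₀ hj0 (by norm_num)]
          linarith
      _ = _ := by ring
  have p1 : |(1 - 2 * S0 / p.1 k) * fderiv ℝ (fun q => D.wf ξ β q k) p (ea l) -
      β k / Real.pi * (Θ' v - if k = l then 1 / 2 else 0)| ≤ 2 * G := by
    refine (abs_sub _ _).trans ?_
    have q1 : |(1 - 2 * S0 / p.1 k) * fderiv ℝ (fun q => D.wf ξ β q k) p (ea l)| ≤ G := by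
      rw [abs_mul]
      calc _ ≤ 1 * G := mul_le_mul h5 (hw k) (abs_nonneg _) zero_le_one
        _ = _ := one_mul _
    have q2 : |β k / Real.pi * (Θ' v - if k = l then 1 / 2 else 0)| ≤ G := by
      rw [abs_mul]
      have q3 := abs_div_pi_le (β k)
      by_cases hkl : k = l
      · subst hkl
        rw [if_pos rfl] at hθ ⊢
        calc _ ≤ |β k| * (1 / 2) := mul_le_mul q3 hθ (abs_nonneg _) (abs_nonneg _)
          _ ≤ |β k| := by linarith [abs_nonneg (β k)]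
          _ ≤ _ := le_add_of_nonneg_right (by positivity)
      · rw [if_neg hkl] at hθ ⊢
        have : |Θ' v - 0| = 0 := le_antisymm hθ (abs_nonneg _)
        rw [this, mul_zero]
        exact hG
    linarith
  have r1 : 2 * A * ‖cc D ξ β p‖ * (Real.exp (-S0) * |Θ' v| +
      Real.exp (-(p.1 k - S0)) * |(if k = l then 1 else 0) - Θ' v|) ≤ e2 * A * G := by
    calc _ ≤ 2 * A * (Z / 5) * (e2 / y) := by
          refine mul_le_mul (mul_le_mul_of_nonneg_left hc (by positivity)) hT ?_ (by positivity)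
          have := Real.exp_pos (-S0)
          have := Real.exp_pos (-(p.1 k - S0))
          positivity
      _ = 2 / 5 * (e2 * A * (Z / y)) := by ring
      _ ≤ 1 * (e2 * A * G) := by
          refine mul_le_mul (by norm_num) (mul_le_mul_of_nonneg_left hZG (by positivity))
            (by positivity) zero_le_one
      _ = _ := one_mul _
  have r2 : 2 * A * (‖cc D ξ β p‖ * ‖dep p (ea l)‖ + ‖ccD D ξ β p (ea l)‖) ≤ 2 * A * G := by
    refine mul_le_mul_of_nonneg_left ?_ (by positivity)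
    have s1 : ‖cc D ξ β p‖ * ‖dep p (ea l)‖ ≤ Z / 5 * (1 / y) :=
      mul_le_mul hc hd (norm_nonneg _) (by positivity)
    have s3 : Z / 5 * (1 / y) = 1 / 5 * (Z / y) := by ring
    rw [s3] at s1
    linarith
  have h7 := abs_add_le ((1 - 2 * S0 / p.1 k) * fderiv ℝ (fun q => D.wf ξ β q k) p (ea l) -
      β k / Real.pi * (Θ' v - if k = l then 1 / 2 else 0))
    (UNKD D h0 h1 hX' hY' ξ β k p S0 Θ0 B S' Θ' v -
      ((1 - 2 * S0 / p.1 k) * fderiv ℝ (fun q => D.wf ξ β q k) p (ea l) -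
      β k / Real.pi * (Θ' v - if k = l then 1 / 2 else 0)))
  rw [add_sub_cancel] at h7
  calc _ ≤ 2 * G + (e2 * A * G + 2 * A * G) := by linarith
    _ = _ := by ring

/-- **direction `α l`, `β = 0`** -/
theorem UNK_a_alpha (hb : D.Big m p) (a0 : ‖h0‖ ≤ A)
    (a1 : ‖h1‖ ≤ A) (aX : ‖hX'‖ ≤ A) (aY : ‖hY'‖ ≤ A) (hS0 : 0 ≤ S0) (hS1 : S0 ≤ p.1 k)
    (ξ : ι → ℝ) {v : E} (hv : B v = ea l) (hS : S' v = 0) :
    |UNKD D h0 h1 hX' hY' ξ 0 k p S0 Θ0 B S' Θ' v| ≤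
      (A2 D + 16 * A + 2 * A * A2 D) * wa ξ p * (Real.exp (-(p.1 l)) +
        (Real.exp (-S0) * |Θ' v| + Real.exp (-(p.1 k - S0)) *
          |(if k = l then 1 else 0) - Θ' v|)) := by
  have hA : 0 ≤ A := (norm_nonneg _).trans a0
  have hm := hb.pos
  have hk0 : ∀ k, 0 < p.1 k := fun k => by
    have := hb.le k
    linarith
  have hW := wa_nonneg hb ξ
  have hA2 := one_le_A2 D
  have hc := cc_alpha hb ξ
  obtain ⟨-, hw', hx'⟩ := alpha_a hb ξ l
  have hw' := hw' k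
  have hd := norm_dep_ea p l
  have h2 := UNK_base_exp (D := D) (ξ := ξ) (β := 0) (Θ0 := Θ0) (B := B) (S' := S') (Θ' := Θ')
    a0 a1 aX aY hS0 hS1 v
  have h5 := abs_one_sub_le hS0 hS1 (hk0 k)
  have h6 := norm_ccD_le D ξ 0 p (B v)
  rw [hv] at h2 h6
  rw [ea_fst, ea_snd, hS, sub_zero, abs_zero, zero_add, zero_add] at h2
  rw [UPK_a hv hS, Pi.zero_apply, zero_div, zero_mul, sub_zero] at h2
  set W := wa ξ p
  set a := A2 D
  set T := Real.exp (-S0) * |Θ' v| + Real.exp (-(p.1 k - S0)) *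
          |(if k = l then 1 else 0) - Θ' v| with hTd
  set e := Real.exp (-(p.1 l))
  have he : 0 < e := Real.exp_pos _
  have hT0 : 0 ≤ T := by
    have := Real.exp_pos (-S0)
    have := Real.exp_pos (-(p.1 k - S0))
    positivity
  have p1 : |(1 - 2 * S0 / p.1 k) * fderiv ℝ (fun q => D.wf ξ 0 q k) p (ea l)| ≤
      a * W * e := by
    rw [abs_mul]
    calc _ ≤ 1 * (a * W * e) := mul_le_mul h5 hw' (abs_nonneg _) zero_le_one
      _ = _ := one_mul _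
  have r1 : 2 * A * ‖cc D ξ 0 p‖ * T ≤ 16 * A * W * T := by
    refine mul_le_mul_of_nonneg_right ?_ hT0
    calc 2 * A * ‖cc D ξ 0 p‖ ≤ 2 * A * (8 * W) := mul_le_mul_of_nonneg_left hc (by positivity)
      _ = _ := by ring
  have r2 : 2 * A * (‖cc D ξ 0 p‖ * ‖dep p (ea l)‖ + ‖ccD D ξ 0 p (ea l)‖) ≤
      (16 * A + 2 * A * a) * W * e := by
    have s1 : ‖cc D ξ 0 p‖ * ‖dep p (ea l)‖ ≤ 8 * W * e :=
      mul_le_mul hc hd (norm_nonneg _) (by positivity)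
    have s2 : ‖ccD D ξ 0 p (ea l)‖ ≤ a * W * e := h6.trans hx'
    calc _ ≤ 2 * A * (8 * W * e + a * W * e) :=
          mul_le_mul_of_nonneg_left (add_le_add s1 s2) (by positivity)
      _ = _ := by ring
  have h7 := abs_add_le ((1 - 2 * S0 / p.1 k) * fderiv ℝ (fun q => D.wf ξ 0 q k) p (ea l))
    (UNKD D h0 h1 hX' hY' ξ 0 k p S0 Θ0 B S' Θ' v -
      (1 - 2 * S0 / p.1 k) * fderiv ℝ (fun q => D.wf ξ 0 q k) p (ea l))
  rw [add_sub_cancel] at h7
  have hp1 : 0 ≤ a * W * T := by positivity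
  have hp2 : 0 ≤ 2 * A * a * W * T := by positivity
  calc _ ≤ a * W * e + (16 * A * W * T + (16 * A + 2 * A * a) * W * e) := by linarith
    _ ≤ a * W * e + (16 * A * W * T + (16 * A + 2 * A * a) * W * e) + a * W * T +
        2 * A * a * W * T := by linarith
    _ = _ := by ring

end base

end Vale.Agent.P273.H545
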