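import Vale.Agent.P273.H545.LegCore
import Vale.Agent.P273.H722.Theta4

/-!
# P273, LIM-CORE2 / LIM-NECK2: base facts on the slopes of 722 at the theta point

`cc D ξ β p = x + i β / π`, sizes and derivatives of the slopes in the directions `y l`, `α l`;
for the classes with `β = 0` everything is bounded by `wa ξ p = ∑ |ξ k| / y k`.
-/

open Set Filter Topology Metric Complex

noncomputable section

namespace Vale.Agent.P273.H545

open H722 H722.KapData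

variable {ι : Type} [Fintype ι] [Nonempty ι] [DecidableEq ι]

/-- the coefficients `x k + i β k / π` -/
def cc (D : KapData ι) (ξ β : ι → ℝ) (p : Pa ι) : ι → ℂ := fun k => (D.xx ξ β p k : ℂ) + ib β k

/-- the derivative of the coefficients -/
def ccD (D : KapData ι) (ξ β : ι → ℝ) (p : Pa ι) : Pa ι →L[ℝ] ι → ℂ := cfD (fderiv ℝ (D.xx ξ β) p)

omit [Nonempty ι] [DecidableEq ι] in
theorem cc_eq (D : KapData ι) (ξ β : ι → ℝ) : cc D ξ β = cf β (D.xx ξ β) := by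
  funext q k
  unfold cc cf ib
  push_cast
  ring

omit [DecidableEq ι] in
theorem hasFDerivAt_cc {D : KapData ι} {m : ℝ} {p : Pa ι} (h : D.Big m p) (ξ β : ι → ℝ) :
    HasFDerivAt (cc D ξ β) (ccD D ξ β p) p := by
  rw [cc_eq]
  exact hasFDerivAt_cf (hasFDerivAt_xx h ξ β)

omit [Nonempty ι] [DecidableEq ι] in
theorem norm_cc_le (D : KapData ι) (ξ β : ι → ℝ) (p : Pa ι) :
    ‖cc D ξ β p‖ ≤ ‖D.xx ξ β p‖ + ‖β‖ := by
  rw [cc_eq]
  exact norm_cf_le β _ p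

omit [Nonempty ι] [DecidableEq ι] in
theorem ccD_apply (D : KapData ι) (ξ β : ι → ℝ) (p v : Pa ι) (k : ι) :
    ccD D ξ β p v k = ((fderiv ℝ (D.xx ξ β) p v k : ℝ) : ℂ) := rfl

omit [Nonempty ι] [DecidableEq ι] in
theorem norm_ccD_le (D : KapData ι) (ξ β : ι → ℝ) (p v : Pa ι) :
    ‖ccD D ξ β p v‖ ≤ ‖fderiv ℝ (D.xx ξ β) p v‖ := norm_cfD_le _ v

variable {D : KapData ι} {ξ β : ι → ℝ} {p : Pa ι} {m Λ : ℝ}

omit [DecidableEq ι] in
/-- the size of the coefficients -/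
theorem norm_c_le (h : D.Big m p) (hΛ : ∀ k, |p.2 k| ≤ Λ) (ξ β : ι → ℝ) :
    ‖cc D ξ β p‖ ≤ D.A0 Λ * sz ξ β / m + ‖β‖ := by
  refine (norm_cc_le D ξ β p).trans (add_le_add ?_ le_rfl)
  have hm := h.pos
  have h1 := (bounds_v h hΛ ξ β).2.2.1
  have l₀ : ι := Classical.arbitrary ι
  have h2 : 0 ≤ D.A0 Λ * sz ξ β := (abs_nonneg _).trans (bounds_v h hΛ ξ β).1
  rw [pi_norm_le_iff_of_nonneg (by positivity)]
  intro k
  rw [Real.norm_eq_abs]
  refine (h1 k).trans ?_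
  exact div_le_div_of_nonneg_left h2 (by linarith) (h.le k)

omit [DecidableEq ι] in
theorem A0sz_nonneg (h : D.Big m p) (hΛ : ∀ k, |p.2 k| ≤ Λ) (ξ β : ι → ℝ) :
    0 ≤ D.A0 Λ * sz ξ β := (abs_nonneg _).trans (bounds_v h hΛ ξ β).1

omit [DecidableEq ι] in
/-- the derivative of the slopes from the derivative of `w` -/
theorem fderiv_xx (h : D.Big m p) (ξ β : ι → ℝ) (v : Pa ι) (k : ι) :
    fderiv ℝ (D.xx ξ β) p v k = 2 / p.1 k *
      (fderiv ℝ (fun q => D.wf ξ β q k) p v - v.1 k / p.1 k * D.wf ξ β p k) := by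
  have h1 := fderiv_wf h ξ β v k
  have h4 := (deriv_isSol h ξ β v).1 k
  unfold KapData.MM at h4
  have hy : (0 : ℝ) < p.1 k := by
    have := h.pos
    have := h.le k
    linarith
  have h5 : fderiv ℝ (fun q => D.wf ξ β q k) p v =
      p.1 k / 2 * fderiv ℝ (D.xx ξ β) p v k + v.1 k / 2 * D.xx ξ β p k := by
    linarith
  rw [h5]
  unfold KapData.wf
  field_simp
  ring

omit [DecidableEq ι] in
/-- numerical facts -/
theorem nums (h : D.Big m p) (hΛ : ∀ k, |p.2 k| ≤ Λ) (ξ β : ι → ℝ) :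
    8 ≤ m ∧ 0 ≤ D.A0 Λ * sz ξ β ∧ ‖β‖ ≤ D.A0 Λ * sz ξ β / 16 ∧
      ‖cc D ξ β p‖ ≤ D.A0 Λ * sz ξ β / 5 := by
  have hm := h.pos
  have hZ := A0sz_nonneg h hΛ ξ β
  have hβ : ‖β‖ ≤ D.A0 Λ * sz ξ β / 16 := by
    have h1 : ‖β‖ ≤ sz ξ β := by
      unfold sz
      linarith [norm_nonneg ξ]
    have h0 : 0 ≤ Λ := (abs_nonneg _).trans (hΛ (Classical.arbitrary ι))
    have hκ := D.κ_one
    have hn : (0 : ℝ) ≤ nn ι := nn_nonneg
    have h2 : 16 ≤ D.A0 Λ := by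
      unfold KapData.A0 KapData.W0 KapData.B0
      have a1 : 0 ≤ 16 * D.κ * ((3 * nn ι + 1) * (1 + Λ + D.κ)) := by positivity
      have a2 : 0 ≤ 4 * (3 * nn ι + 1) * (D.κ * (1 + nn ι * (1 + Λ + D.κ))) := by positivity
      linarith
    have h3 : 16 * sz ξ β ≤ D.A0 Λ * sz ξ β :=
      mul_le_mul_of_nonneg_right h2 (sz_nonneg ξ β)
    linarith
  refine ⟨hm, hZ, hβ, (norm_c_le h hΛ ξ β).trans ?_⟩
  have h4 : D.A0 Λ * sz ξ β / m ≤ D.A0 Λ * sz ξ β / 8 :=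
    div_le_div_of_nonneg_left hZ (by norm_num) hm
  linarith

/-- the derivative of the slopes in the direction `y l` -/
theorem norm_xx_y (h : D.Big m p) (hΛ : ∀ k, |p.2 k| ≤ Λ) (ξ β : ι → ℝ) (l : ι) :
    ‖fderiv ℝ (D.xx ξ β) p (ey l)‖ ≤ 4 * (D.A0 Λ * sz ξ β) / p.1 l ^ 2 := by
  obtain ⟨hm, hZ, -, -⟩ := nums h hΛ ξ β
  have hl := h.le l
  rw [pi_norm_le_iff_of_nonneg (by positivity)]
  intro k
  have hk := h.le k
  have hk0 : (0 : ℝ) < p.1 k := by linarith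
  have hl0 : (0 : ℝ) < p.1 l := by linarith
  rw [fderiv_xx h ξ β (ey l) k, Real.norm_eq_abs, abs_mul, abs_of_pos (by positivity)]
  have h1 := (bounds_y h hΛ ξ β l).2.1 k
  have h2 := (bounds_v h hΛ ξ β).2.1 k
  set Z := D.A0 Λ * sz ξ β
  have h3 : 2 / p.1 k * |fderiv ℝ (fun q => D.wf ξ β q k) p (ey l)| ≤
      2 * Z / p.1 l ^ 2 := by
    calc 2 / p.1 k * |fderiv ℝ (fun q => D.wf ξ β q k) p (ey l)|
        ≤ 2 / p.1 k * (Z * (m / p.1 l ^ 2)) :=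
          mul_le_mul_of_nonneg_left h1 (by positivity)
      _ = (m / p.1 k) * (2 * Z / p.1 l ^ 2) := by ring
      _ ≤ 1 * (2 * Z / p.1 l ^ 2) :=
          mul_le_mul_of_nonneg_right ((div_le_one hk0).2 hk) (by positivity)
      _ = _ := one_mul _
  have h4 : 2 / p.1 k * |(ey l : Pa ι).1 k / p.1 k * D.wf ξ β p k| ≤
      2 * Z / p.1 l ^ 2 := by
    by_cases hkl : k = l
    · subst hkl
      have h5 : (ey k : Pa ι).1 k = 1 := by simp [ey]
      rw [h5, abs_mul, abs_of_pos (by positivity)]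
      calc 2 / p.1 k * (1 / p.1 k * |D.wf ξ β p k|)
          ≤ 2 / p.1 k * (1 / p.1 k * Z) :=
            mul_le_mul_of_nonneg_left (mul_le_mul_of_nonneg_left h2 (by positivity))
              (by positivity)
        _ = _ := by
          field_simp
    · have h5 : (ey l : Pa ι).1 k = 0 := by simp [ey, hkl]
      rw [h5, zero_div, zero_mul, abs_zero, mul_zero]
      positivity
  calc 2 / p.1 k * |fderiv ℝ (fun q => D.wf ξ β q k) p (ey l) -
        (ey l : Pa ι).1 k / p.1 k * D.wf ξ β p k|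
      ≤ 2 / p.1 k * (|fderiv ℝ (fun q => D.wf ξ β q k) p (ey l)| +
        |(ey l : Pa ι).1 k / p.1 k * D.wf ξ β p k|) :=
        mul_le_mul_of_nonneg_left (abs_sub _ _) (by positivity)
    _ ≤ 2 * Z / p.1 l ^ 2 + 2 * Z / p.1 l ^ 2 := by rw [mul_add]; exact add_le_add h3 h4
    _ = _ := by ring

/-- the derivative of the slopes in the direction `α l` -/
theorem norm_xx_a (h : D.Big m p) (hΛ : ∀ k, |p.2 k| ≤ Λ) (ξ β : ι → ℝ) (l : ι) :
    ‖fderiv ℝ (D.xx ξ β) p (ea l)‖ ≤ 2 * (D.A0 Λ * sz ξ β) / m := by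
  obtain ⟨hm, hZ, -, -⟩ := nums h hΛ ξ β
  have hm0 : 0 < m := by linarith
  rw [pi_norm_le_iff_of_nonneg (by positivity)]
  intro k
  have hk := h.le k
  have hk0 : (0 : ℝ) < p.1 k := by linarith
  rw [fderiv_xx h ξ β (ea l) k, Real.norm_eq_abs, abs_mul, abs_of_pos (by positivity)]
  have h1 := (bounds_a h hΛ ξ β l).2.1 k
  have h5 : (ea l : Pa ι).1 k = 0 := by simp [ea]
  rw [h5, zero_div, zero_mul, sub_zero]
  set Z := D.A0 Λ * sz ξ β
  calc 2 / p.1 k * |fderiv ℝ (fun q => D.wf ξ β q k) p (ea l)|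
      ≤ 2 / m * Z := mul_le_mul (div_le_div_of_nonneg_left (by norm_num) hm0 hk) h1
        (abs_nonneg _) (by positivity)
    _ = _ := by ring

/-- the same for `β = 0` -/
theorem norm_xx_a_alpha (h : D.Big m p) (hΛ : ∀ k, |p.2 k| ≤ Λ) (ξ : ι → ℝ) (l : ι) :
    ‖fderiv ℝ (D.xx ξ 0) p (ea l)‖ ≤ D.A0 Λ * ‖ξ‖ * Real.exp (-(p.1 l)) := by
  obtain ⟨hm, hZ, -, -⟩ := nums h hΛ ξ 0
  have hsz : sz ξ (0 : ι → ℝ) = ‖ξ‖ := by unfold sz; rw [norm_zero, add_zero]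
  rw [hsz] at hZ
  have hm0 : 0 < m := by linarith
  have he := Real.exp_pos (-(p.1 l))
  rw [pi_norm_le_iff_of_nonneg (by positivity)]
  intro k
  have hk := h.le k
  have hk0 : (0 : ℝ) < p.1 k := by linarith
  rw [fderiv_xx h ξ 0 (ea l) k, Real.norm_eq_abs, abs_mul, abs_of_pos (by positivity)]
  have h1 := (bounds_a_alpha h hΛ ξ l).2 k
  have h5 : (ea l : Pa ι).1 k = 0 := by simp [ea]
  rw [h5, zero_div, zero_mul, sub_zero]
  set Z := D.A0 Λ * ‖ξ‖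
  calc 2 / p.1 k * |fderiv ℝ (fun q => D.wf ξ 0 q k) p (ea l)|
      ≤ 1 * (Z * Real.exp (-(p.1 l))) := by
        refine mul_le_mul ?_ h1 (abs_nonneg _) (by norm_num)
        rw [div_le_one hk0]
        linarith
    _ = _ := one_mul _

end Vale.Agent.P273.H545
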