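import Vale.Agent.P273.H722.Sys

/-!
# P273, LIM-CORE: the harmonic potential on the core, in arbitrary real coordinates

`E` = any real normed space of coordinates, `p : E → P` the parameters, `x : E → ℂ` a coordinate
of the core (near: the point, far: its inverse), `C : E → ℝ` the additive constant and `c : E → W`
the coefficients.  `UC K p x C c q = C q + Re (K (p q, x q) (c q))`.
-/

open Set Filter Topology Metric Complex

noncomputable section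

namespace Vale.Agent.P273.H545

variable {E P W : Type*} [NormedAddCommGroup E] [NormedSpace ℝ E]
  [NormedAddCommGroup P] [NormedSpace ℝ P] [NormedAddCommGroup W] [NormedSpace ℂ W]

/-- the evaluation `K (p, x) c` -/
def Ec (K : P × ℂ → W →L[ℂ] ℂ) (p : E → P) (x : E → ℂ) (c : E → W) (q : E) : ℂ :=
  K (p q, x q) (c q)

/-- the derivative of the evaluation -/
def EcD (K0 : W →L[ℂ] ℂ) (K' : P × ℂ →L[ℝ] (W →L[ℂ] ℂ)) (c0 : W)
    (p' : E →L[ℝ] P) (x' : E →L[ℝ] ℂ) (c' : E →L[ℝ] W) : E →L[ℝ] ℂ :=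
  (((ContinuousLinearMap.apply ℂ ℂ c0).restrictScalars ℝ).comp K').comp (p'.prod x') +
    (K0.restrictScalars ℝ).comp c'

theorem EcD_apply (K0 : W →L[ℂ] ℂ) (K' : P × ℂ →L[ℝ] (W →L[ℂ] ℂ)) (c0 : W)
    (p' : E →L[ℝ] P) (x' : E →L[ℝ] ℂ) (c' : E →L[ℝ] W) (v : E) :
    EcD K0 K' c0 p' x' c' v = K' (p' v, x' v) c0 + K0 (c' v) := rfl

theorem hasFDerivAt_Ec {K : P × ℂ → W →L[ℂ] ℂ} {K' : P × ℂ →L[ℝ] (W →L[ℂ] ℂ)} {p : E → P}
    {x : E → ℂ} {c : E → W} {p' : E →L[ℝ] P} {x' : E →L[ℝ] ℂ} {c' : E →L[ℝ] W} {q : E}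
    (hK : HasFDerivAt K K' (p q, x q)) (hp : HasFDerivAt p p' q) (hx : HasFDerivAt x x' q)
    (hc : HasFDerivAt c c' q) :
    HasFDerivAt (Ec K p x c) (EcD (K (p q, x q)) K' (c q) p' x' c') q := by
  have h1 : HasFDerivAt (fun q => K (p q, x q)) (K'.comp (p'.prod x')) q :=
    HasFDerivAt.comp (f := fun q => (p q, x q)) q hK (hp.prodMk hx)
  let B : (W →L[ℂ] ℂ) →L[ℝ] W →L[ℝ] ℂ :=
    ContinuousLinearMap.restrictScalarsL ℂ W ℂ ℝ ℝ
  have h2 : HasFDerivAt (fun q => B (K (p q, x q)) (c q))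
      ((B (K (p q, x q))).comp c' + ((B.comp (K'.comp (p'.prod x'))).flip (c q))) q :=
    HasFDerivAt.clm_apply (B.hasFDerivAt.comp q h1) hc
  refine h2.congr_fderiv ?_
  ext v
  rw [EcD_apply]
  have e1 : ((B (K (p q, x q))).comp c' + ((B.comp (K'.comp (p'.prod x'))).flip (c q))) v =
      K (p q, x q) (c' v) + (K' (p' v, x' v)) (c q) := rfl
  rw [e1]
  ring

/-- the bound of the derivative of the evaluation -/
theorem norm_EcD_le {K0 : W →L[ℂ] ℂ} {K' : P × ℂ →L[ℝ] (W →L[ℂ] ℂ)} {c0 : W}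
    {p' : E →L[ℝ] P} {x' : E →L[ℝ] ℂ} {c' : E →L[ℝ] W} {A : ℝ} (hA0 : ‖K0‖ ≤ A)
    (hA1 : ‖K'‖ ≤ A) (v : E) :
    ‖EcD K0 K' c0 p' x' c' v‖ ≤ A * (‖c0‖ * (‖p' v‖ + ‖x' v‖) + ‖c' v‖) := by
  have hA : 0 ≤ A := (norm_nonneg _).trans hA0
  rw [EcD_apply]
  have e2 : ‖K' (p' v, x' v) c0‖ ≤ A * (‖p' v‖ + ‖x' v‖) * ‖c0‖ := by
    refine ((K' (p' v, x' v)).le_opNorm c0).trans (mul_le_mul_of_nonneg_right ?_ (norm_nonneg _))
    refine (K'.le_opNorm _).trans (mul_le_mul hA1 ?_ (norm_nonneg _) hA)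
    rw [Prod.norm_mk]
    exact max_le (le_add_of_nonneg_right (norm_nonneg _)) (le_add_of_nonneg_left (norm_nonneg _))
  have e3 : ‖K0 (c' v)‖ ≤ A * ‖c' v‖ :=
    (K0.le_opNorm _).trans (mul_le_mul_of_nonneg_right hA0 (norm_nonneg _))
  refine (norm_add_le _ _).trans ((add_le_add e2 e3).trans (le_of_eq ?_))
  ring

/-- the potential on the core -/
def UC (K : P × ℂ → W →L[ℂ] ℂ) (p : E → P) (x : E → ℂ) (C : E → ℝ) (c : E → W) (q : E) : ℝ :=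
  C q + (Ec K p x c q).re

/-- the derivative of the potential on the core -/
def UCD (K0 : W →L[ℂ] ℂ) (K' : P × ℂ →L[ℝ] (W →L[ℂ] ℂ)) (c0 : W)
    (p' : E →L[ℝ] P) (x' : E →L[ℝ] ℂ) (C' : E →L[ℝ] ℝ) (c' : E →L[ℝ] W) : E →L[ℝ] ℝ :=
  C' + Complex.reCLM.comp (EcD K0 K' c0 p' x' c')

theorem UCD_apply (K0 : W →L[ℂ] ℂ) (K' : P × ℂ →L[ℝ] (W →L[ℂ] ℂ)) (c0 : W)
    (p' : E →L[ℝ] P) (x' : E →L[ℝ] ℂ) (C' : E →L[ℝ] ℝ) (c' : E →L[ℝ] W) (v : E) :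
    UCD K0 K' c0 p' x' C' c' v = C' v + (K' (p' v, x' v) c0 + K0 (c' v)).re := rfl

theorem hasFDerivAt_UC {K : P × ℂ → W →L[ℂ] ℂ} {K' : P × ℂ →L[ℝ] (W →L[ℂ] ℂ)} {p : E → P}
    {x : E → ℂ} {C : E → ℝ} {c : E → W} {p' : E →L[ℝ] P} {x' : E →L[ℝ] ℂ} {C' : E →L[ℝ] ℝ}
    {c' : E →L[ℝ] W} {q : E} (hK : HasFDerivAt K K' (p q, x q)) (hp : HasFDerivAt p p' q)
    (hx : HasFDerivAt x x' q) (hC : HasFDerivAt C C' q) (hc : HasFDerivAt c c' q) :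
    HasFDerivAt (UC K p x C c) (UCD (K (p q, x q)) K' (c q) p' x' C' c') q :=
  hC.add (Complex.reCLM.hasFDerivAt.comp q (hasFDerivAt_Ec hK hp hx hc))

/-- **the bound of the derivative of the potential on the core**, every direction `v` -/
theorem UC_bound {K0 : W →L[ℂ] ℂ} {K' : P × ℂ →L[ℝ] (W →L[ℂ] ℂ)} {c0 : W}
    {p' : E →L[ℝ] P} {x' : E →L[ℝ] ℂ} {C' : E →L[ℝ] ℝ} {c' : E →L[ℝ] W} {A : ℝ}
    (hA0 : ‖K0‖ ≤ A) (hA1 : ‖K'‖ ≤ A) (v : E) :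
    |UCD K0 K' c0 p' x' C' c' v| ≤
      |C' v| + A * (‖c0‖ * (‖p' v‖ + ‖x' v‖) + ‖c' v‖) := by
  have h1 : UCD K0 K' c0 p' x' C' c' v = C' v + (EcD K0 K' c0 p' x' c' v).re := rfl
  rw [h1]
  refine (abs_add_le _ _).trans (add_le_add le_rfl ?_)
  exact (Complex.abs_re_le_norm _).trans (norm_EcD_le hA0 hA1 v)

/-- a direction along which only the coordinate of the core moves -/
theorem UC_bound_x {K0 : W →L[ℂ] ℂ} {K' : P × ℂ →L[ℝ] (W →L[ℂ] ℂ)} {c0 : W}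
    {p' : E →L[ℝ] P} {x' : E →L[ℝ] ℂ} {C' : E →L[ℝ] ℝ} {c' : E →L[ℝ] W} {A : ℝ}
    (hA1 : ‖K'‖ ≤ A) {v : E} (hp : p' v = 0) (hC : C' v = 0) (hc : c' v = 0) :
    |UCD K0 K' c0 p' x' C' c' v| ≤ A * ‖c0‖ * ‖x' v‖ := by
  have hA : 0 ≤ A := (norm_nonneg K').trans hA1
  rw [UCD_apply, hC, hc, map_zero, add_zero, zero_add, hp]
  refine (Complex.abs_re_le_norm _).trans (((K' (0, x' v)).le_opNorm c0).trans ?_)
  have h1 : ‖K' (0, x' v)‖ ≤ A * ‖x' v‖ := by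
    refine (K'.le_opNorm _).trans (mul_le_mul hA1 ?_ (norm_nonneg _) hA)
    rw [Prod.norm_mk, norm_zero]
    exact max_le (norm_nonneg _) le_rfl
  calc ‖K' (0, x' v)‖ * ‖c0‖ ≤ A * ‖x' v‖ * ‖c0‖ := mul_le_mul_of_nonneg_right h1 (norm_nonneg _)
    _ = _ := by ring

/-- a direction along which nothing moves -/
theorem UCD_zero {K0 : W →L[ℂ] ℂ} {K' : P × ℂ →L[ℝ] (W →L[ℂ] ℂ)} {c0 : W}
    {p' : E →L[ℝ] P} {x' : E →L[ℝ] ℂ} {C' : E →L[ℝ] ℝ} {c' : E →L[ℝ] W} {v : E}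
    (hp : p' v = 0) (hx : x' v = 0) (hC : C' v = 0) (hc : c' v = 0) :
    UCD K0 K' c0 p' x' C' c' v = 0 := by
  have h1 : ((0 : P), (0 : ℂ)) = 0 := rfl
  rw [UCD_apply, hC, hc, hp, hx, h1, map_zero, map_zero]
  simp

/-- a direction along which the coordinate of the core does not move -/
theorem UC_bound_base {K0 : W →L[ℂ] ℂ} {K' : P × ℂ →L[ℝ] (W →L[ℂ] ℂ)} {c0 : W}
    {p' : E →L[ℝ] P} {x' : E →L[ℝ] ℂ} {C' : E →L[ℝ] ℝ} {c' : E →L[ℝ] W} {A : ℝ}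
    (hA0 : ‖K0‖ ≤ A) (hA1 : ‖K'‖ ≤ A) {v : E} (hx : x' v = 0) :
    |UCD K0 K' c0 p' x' C' c' v| ≤ |C' v| + A * (‖c0‖ * ‖p' v‖ + ‖c' v‖) := by
  have h := UC_bound (c0 := c0) (p' := p') (x' := x') (C' := C') (c' := c') hA0 hA1 v
  rw [hx, norm_zero, add_zero] at h
  exact h

omit [NormedAddCommGroup E] [NormedSpace ℝ E] [NormedAddCommGroup P] [NormedSpace ℝ P] in
/-- the size of the potential on the core -/
theorem UC_sub_le {K : P × ℂ → W →L[ℂ] ℂ} {p : E → P} {x : E → ℂ} {C : E → ℝ} {c : E → W}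
    {q : E} {A : ℝ} (hA : ‖K (p q, x q)‖ ≤ A) : |UC K p x C c q - C q| ≤ A * ‖c q‖ := by
  unfold UC Ec
  rw [add_sub_cancel_left]
  refine (Complex.abs_re_le_norm _).trans (((K (p q, x q)).le_opNorm (c q)).trans ?_)
  exact mul_le_mul_of_nonneg_right hA (norm_nonneg _)

omit [NormedAddCommGroup E] [NormedSpace ℝ E] [NormedAddCommGroup P] [NormedSpace ℝ P] in
theorem abs_UC_le {K : P × ℂ → W →L[ℂ] ℂ} {p : E → P} {x : E → ℂ} {C : E → ℝ} {c : E → W}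
    {q : E} {A : ℝ} (hA : ‖K (p q, x q)‖ ≤ A) : |UC K p x C c q| ≤ |C q| + A * ‖c q‖ := by
  have h := UC_sub_le (C := C) (c := c) hA
  have h2 := abs_add_le (C q) (UC K p x C c q - C q)
  rw [add_sub_cancel] at h2
  linarith

/-! ### limits -/

section limits

variable {ι : Type*} {l : Filter ι}

/-- application of converging operators -/
theorem tendsto_app {𝕜 F G : Type*} [NontriviallyNormedField 𝕜] [NormedAddCommGroup F]
    [NormedSpace 𝕜 F] [NormedAddCommGroup G] [NormedSpace 𝕜 G] {f : ι → F →L[𝕜] G} {x : ι → F}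
    {f0 : F →L[𝕜] G} {x0 : F} (hf : Tendsto f l (𝓝 f0)) (hx : Tendsto x l (𝓝 x0)) :
    Tendsto (fun i => f i (x i)) l (𝓝 (f0 x0)) :=
  ((isBoundedBilinearMap_apply (𝕜 := 𝕜) (E := F) (F := G)).continuous.tendsto (f0, x0)).comp
    (hf.prodMk_nhds hx)

omit [NormedAddCommGroup E] [NormedSpace ℝ E] [NormedAddCommGroup P] [NormedSpace ℝ P] in
/-- the value converges -/
theorem UC_tendsto {K : P × ℂ → W →L[ℂ] ℂ} {p : E → P} {x : E → ℂ} {C : E → ℝ} {c : E → W}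
    {q : ι → E} {p0 : P} {x0 : ℂ} {C0 : ℝ} {c0 : W}
    (hK : Tendsto (fun i => K (p (q i), x (q i))) l (𝓝 (K (p0, x0))))
    (hC : Tendsto (fun i => C (q i)) l (𝓝 C0)) (hc : Tendsto (fun i => c (q i)) l (𝓝 c0)) :
    Tendsto (fun i => UC K p x C c (q i)) l (𝓝 (C0 + (K (p0, x0) c0).re)) := by
  have h1 : Tendsto (fun i => K (p (q i), x (q i)) (c (q i))) l (𝓝 (K (p0, x0) c0)) :=
    tendsto_app hK hc
  exact hC.add ((Complex.continuous_re.tendsto _).comp h1)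

omit [NormedAddCommGroup E] [NormedSpace ℝ E] [NormedAddCommGroup P] [NormedSpace ℝ P] in
/-- the value converges to the constant when the coefficients tend to zero -/
theorem UC_tendsto_zero {K : P × ℂ → W →L[ℂ] ℂ} {p : E → P} {x : E → ℂ} {C : E → ℝ} {c : E → W}
    {q : ι → E} {C0 A : ℝ} (hA : ∀ᶠ i in l, ‖K (p (q i), x (q i))‖ ≤ A)
    (hC : Tendsto (fun i => C (q i)) l (𝓝 C0)) (hc : Tendsto (fun i => c (q i)) l (𝓝 0)) :
    Tendsto (fun i => UC K p x C c (q i)) l (𝓝 C0) := by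
  have h1 : Tendsto (fun i => UC K p x C c (q i) - C (q i)) l (𝓝 0) := by
    have h2 : Tendsto (fun i => A * ‖c (q i)‖) l (𝓝 0) := by
      have := hc.norm.const_mul A
      simpa using this
    refine squeeze_zero_norm' (hA.mono fun i hi => ?_) h2
    exact UC_sub_le (C := C) (c := c) hi
  have h3 := h1.add hC
  simpa using h3

/-- the rescaled derivative `T d` converges to the rescaled derivative of the constant -/
theorem UCD_tendsto {K0 : ι → W →L[ℂ] ℂ} {K' : ι → P × ℂ →L[ℝ] (W →L[ℂ] ℂ)} {c0 : ι → W}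
    {p' : ι → E →L[ℝ] P} {x' : ι → E →L[ℝ] ℂ} {C' : ι → E →L[ℝ] ℝ} {c' : ι → E →L[ℝ] W}
    {A L : ℝ} {T : ι → ℝ} {v : ι → E}
    (hA0 : ∀ᶠ i in l, ‖K0 i‖ ≤ A) (hA1 : ∀ᶠ i in l, ‖K' i‖ ≤ A)
    (hC : Tendsto (fun i => T i * C' i (v i)) l (𝓝 L))
    (h0 : Tendsto (fun i => |T i| * (‖c0 i‖ * (‖p' i (v i)‖ + ‖x' i (v i)‖) + ‖c' i (v i)‖)) l
      (𝓝 0)) :
    Tendsto (fun i => T i * UCD (K0 i) (K' i) (c0 i) (p' i) (x' i) (C' i) (c' i) (v i)) l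
      (𝓝 L) := by
  have h1 : Tendsto (fun i => T i * (EcD (K0 i) (K' i) (c0 i) (p' i) (x' i) (c' i) (v i)).re) l
      (𝓝 0) := by
    have h2 := h0.const_mul A
    rw [mul_zero] at h2
    refine squeeze_zero_norm' ((hA0.and hA1).mono fun i hi => ?_) h2
    rw [norm_mul, Real.norm_eq_abs, Real.norm_eq_abs]
    have h3 := (Complex.abs_re_le_norm (EcD (K0 i) (K' i) (c0 i) (p' i) (x' i) (c' i) (v i))).trans
      (norm_EcD_le hi.1 hi.2 (v i))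
    calc |T i| * |(EcD (K0 i) (K' i) (c0 i) (p' i) (x' i) (c' i) (v i)).re|
        ≤ |T i| * (A * (‖c0 i‖ * (‖p' i (v i)‖ + ‖x' i (v i)‖) + ‖c' i (v i)‖)) :=
          mul_le_mul_of_nonneg_left h3 (abs_nonneg _)
      _ = _ := by ring
  have h4 := hC.add h1
  rw [add_zero] at h4
  refine h4.congr fun i => ?_
  show _ = T i * (C' i (v i) + (EcD (K0 i) (K' i) (c0 i) (p' i) (x' i) (c' i) (v i)).re)
  ring

/-- the derivative converges, general form -/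
theorem UCD_tendsto' {K0 : ι → W →L[ℂ] ℂ} {K' : ι → P × ℂ →L[ℝ] (W →L[ℂ] ℂ)} {c0 : ι → W}
    {p' : ι → E →L[ℝ] P} {x' : ι → E →L[ℝ] ℂ} {C' : ι → E →L[ℝ] ℝ} {c' : ι → E →L[ℝ] W}
    {K0l : W →L[ℂ] ℂ} {K'l : P × ℂ →L[ℝ] (W →L[ℂ] ℂ)} {c0l c'l : W} {p'l : P} {x'l : ℂ} {L : ℝ}
    {v : ι → E} (hK0 : Tendsto K0 l (𝓝 K0l)) (hK' : Tendsto K' l (𝓝 K'l))
    (hc0 : Tendsto c0 l (𝓝 c0l)) (hp : Tendsto (fun i => p' i (v i)) l (𝓝 p'l))
    (hx : Tendsto (fun i => x' i (v i)) l (𝓝 x'l)) (hC : Tendsto (fun i => C' i (v i)) l (𝓝 L))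
    (hc : Tendsto (fun i => c' i (v i)) l (𝓝 c'l)) :
    Tendsto (fun i => UCD (K0 i) (K' i) (c0 i) (p' i) (x' i) (C' i) (c' i) (v i)) l
      (𝓝 (L + (K'l (p'l, x'l) c0l + K0l c'l).re)) := by
  have h1 : Tendsto (fun i => K' i (p' i (v i), x' i (v i))) l (𝓝 (K'l (p'l, x'l))) :=
    tendsto_app hK' (hp.prodMk_nhds hx)
  have h2 := (tendsto_app h1 hc0).add (tendsto_app hK0 hc)
  exact hC.add ((Complex.continuous_re.tendsto _).comp h2)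

end limits

/-! ### the coefficients `x k + i β k / π` of 722's system -/

section system

open H722

variable {ι : Type} [Fintype ι]

/-- the coefficients `x k + i β k / π` -/
def cf (β : ι → ℝ) (x : E → ι → ℝ) (q : E) : ι → ℂ :=
  fun k => (x q k : ℂ) + I * ((β k / Real.pi : ℝ) : ℂ)

/-- the derivative of the coefficients -/
def cfD (x' : E →L[ℝ] ι → ℝ) : E →L[ℝ] ι → ℂ :=
  ContinuousLinearMap.pi fun k => Complex.ofRealCLM.comp
    ((ContinuousLinearMap.proj (R := ℝ) (φ := fun _ : ι => ℝ) k).comp x')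

omit [Fintype ι] in
theorem cfD_apply (x' : E →L[ℝ] ι → ℝ) (v : E) (k : ι) : cfD x' v k = ((x' v k : ℝ) : ℂ) := rfl

theorem hasFDerivAt_cf {β : ι → ℝ} {x : E → ι → ℝ} {x' : E →L[ℝ] ι → ℝ} {q : E}
    (hx : HasFDerivAt x x' q) : HasFDerivAt (cf β x) (cfD x') q := by
  rw [hasFDerivAt_pi']
  intro k
  have h1 : HasFDerivAt (fun q => x q k)
      ((ContinuousLinearMap.proj (R := ℝ) (φ := fun _ : ι => ℝ) k).comp x') q :=
    (ContinuousLinearMap.proj (R := ℝ) (φ := fun _ : ι => ℝ) k).hasFDerivAt.comp q hx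
  have h2 : HasFDerivAt (fun q => ((x q k : ℝ) : ℂ)) (Complex.ofRealCLM.comp
      ((ContinuousLinearMap.proj (R := ℝ) (φ := fun _ : ι => ℝ) k).comp x')) q :=
    Complex.ofRealCLM.hasFDerivAt.comp q h1
  exact h2.add_const _

theorem norm_cfD_le (x' : E →L[ℝ] ι → ℝ) (v : E) : ‖cfD x' v‖ ≤ ‖x' v‖ := by
  rw [pi_norm_le_iff_of_nonneg (norm_nonneg _)]
  intro k
  rw [cfD_apply, Complex.norm_real]
  exact norm_le_pi_norm (x' v) k

omit [NormedAddCommGroup E] [NormedSpace ℝ E] in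
theorem norm_cf_le (β : ι → ℝ) (x : E → ι → ℝ) (q : E) : ‖cf β x q‖ ≤ ‖x q‖ + ‖β‖ := by
  rw [pi_norm_le_iff_of_nonneg (by positivity)]
  intro k
  refine (norm_add_le _ _).trans (add_le_add ?_ ?_)
  · rw [Complex.norm_real]
    exact norm_le_pi_norm (x q) k
  · rw [norm_mul, Complex.norm_I, one_mul, Complex.norm_real, norm_div, Real.norm_eq_abs Real.pi,
      abs_of_pos Real.pi_pos]
    have h1 : ‖β k‖ ≤ ‖β‖ := norm_le_pi_norm β k
    refine (div_le_self (norm_nonneg _) ?_).trans h1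
    linarith [Real.pi_gt_three]

end system

end Vale.Agent.P273.H545
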