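import Vale.Agent.P273.H545.LegCore

/-!
# P273, LIM-CORE: the potential on the core with the coefficients of the slope system

The slopes `x : E → ι → ℝ` and the constant `C : E → ℝ` solve `IsSol (M q) (Kp q) (g q) (x q) (C q)`
near the point.  For every direction `v` the derivatives are controlled by
`dd = ww M (g' v) + (3 m ww M g + ‖g‖) ∑ |M' v k| / M k ^ 2 + 4 κ' (card / m) ww M g`,
where `‖Kp' v‖ ≤ κ'`.
-/

open Set Filter Topology Metric Complex Finset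

noncomputable section

namespace Vale.Agent.P273.H545

open H722

variable {ι : Type} [Fintype ι]

/-- the right hand side of the derivative system -/
def gt (g' M' x : ι → ℝ) (K' : (ι → ℝ) →L[ℝ] (ι → ℝ)) : ι → ℝ :=
  fun k => g' k + M' k * x k - K' x k

/-- the majorant of the weighted size of the right hand side of the derivative system -/
def dd (M g g' M' : ι → ℝ) (m κ' : ℝ) : ℝ :=
  ww M g' + (3 * m * ww M g + ‖g‖) * ∑ k, |M' k| / M k ^ 2 +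
    4 * κ' * (Fintype.card ι / m) * ww M g

variable [Nonempty ι] {M g x g' M' : ι → ℝ} {K K' : (ι → ℝ) →L[ℝ] (ι → ℝ)} {C m κ κ' : ℝ}

theorem dd_nonneg (hM : ∀ k, m ≤ M k) (hm0 : 0 < m) (hκ' : 0 ≤ κ') : 0 ≤ dd M g g' M' m κ' := by
  have hM0 : ∀ k, 0 < M k := fun k => hm0.trans_le (hM k)
  have h1 := ww_nonneg hM0 g
  have h2 := ww_nonneg hM0 g'
  have h3 : 0 ≤ ∑ k, |M' k| / M k ^ 2 :=
    sum_nonneg fun k _ => div_nonneg (abs_nonneg _) (sq_nonneg _)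
  unfold dd
  positivity

/-- the weighted size of the right hand side of the derivative system -/
theorem ww_gt_le (h : IsSol M K g x C) (hM : ∀ k, m ≤ M k) (hm : ∃ l, M l ≤ m) (hm0 : 0 < m)
    (hK : ‖K‖ ≤ κ) (hmκ : 4 * κ ≤ m) (hK' : ‖K'‖ ≤ κ') :
    ww M (gt g' M' x K') ≤ dd M g g' M' m κ' := by
  have hM0 : ∀ k, 0 < M k := fun k => hm0.trans_le (hM k)
  have hκ'0 : 0 ≤ κ' := (norm_nonneg _).trans hK'
  obtain ⟨hx, -, hMx⟩ := h.bound hM hm hm0 hK hmκ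
  have hw := ww_nonneg hM0 g
  refine (ww_deriv_le hM0 g' M' x K').trans ?_
  unfold dd
  refine add_le_add (add_le_add le_rfl ?_) ?_
  · rw [mul_sum]
    refine sum_le_sum fun k _ => ?_
    have h1 : |x k| ≤ (3 * m * ww M g + ‖g‖) / M k := by
      rw [le_div_iff₀ (hM0 k), mul_comm]
      have h2 := hMx k
      rw [abs_mul, abs_of_pos (hM0 k)] at h2
      have h3 : |g k| ≤ ‖g‖ := by simpa using norm_le_pi_norm g k
      linarith
    calc |M' k| * |x k| / M k ≤ |M' k| * ((3 * m * ww M g + ‖g‖) / M k) / M k :=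
          div_le_div_of_nonneg_right (mul_le_mul_of_nonneg_left h1 (abs_nonneg _)) (hM0 k).le
      _ = (3 * m * ww M g + ‖g‖) * (|M' k| / M k ^ 2) := by
          rw [sq, div_eq_mul_inv, div_eq_mul_inv, div_eq_mul_inv, mul_inv]; ring
  · have h1 : ∑ k, (M k)⁻¹ ≤ Fintype.card ι / m := by
      calc ∑ k, (M k)⁻¹ ≤ ∑ _k : ι, m⁻¹ := sum_le_sum fun k _ => inv_anti₀ hm0 (hM k)
        _ = Fintype.card ι / m := by simp [card_univ, div_eq_mul_inv]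
    calc ‖K'‖ * ‖x‖ * ∑ k, (M k)⁻¹ ≤ κ' * (4 * ww M g) * (Fintype.card ι / m) := by
          refine mul_le_mul (mul_le_mul hK' hx (norm_nonneg _) hκ'0) h1
            (sum_nonneg fun k _ => (inv_pos.2 (hM0 k)).le) (by positivity)
      _ = _ := by ring

section

variable {E : Type} [NormedAddCommGroup E] [NormedSpace ℝ E]

/-- **the derivatives of the slopes and of the constant**, every direction `v` -/
theorem sys_bound {M : E → ι → ℝ} {K : E → (ι → ℝ) →L[ℝ] (ι → ℝ)} {g x : E → ι → ℝ}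
    {C : E → ℝ} {q : E} {M' g' x' : E →L[ℝ] ι → ℝ} {K' : E →L[ℝ] (ι → ℝ) →L[ℝ] (ι → ℝ)}
    {C' : E →L[ℝ] ℝ} (h : ∀ᶠ q in 𝓝 q, IsSol (M q) (K q) (g q) (x q) (C q))
    (hM' : HasFDerivAt M M' q) (hK' : HasFDerivAt K K' q) (hg' : HasFDerivAt g g' q)
    (hx' : HasFDerivAt x x' q) (hC' : HasFDerivAt C C' q) (hM : ∀ k, m ≤ M q k)
    (hm : ∃ l, M q l ≤ m) (hm0 : 0 < m) (hK : ‖K q‖ ≤ κ) (hmκ : 4 * κ ≤ m) {v : E}
    (hv : ‖K' v‖ ≤ κ') :
    ‖x' v‖ ≤ 4 * dd (M q) (g q) (g' v) (M' v) m κ' ∧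
      |C' v| ≤ 2 * m * dd (M q) (g q) (g' v) (M' v) m κ' := by
  have h1 := IsSol.deriv h hM' hK' hg' hx' hC' v
  obtain ⟨h2, h3, -⟩ := h1.bound hM hm hm0 hK hmκ
  have h4 : ww (M q) (gt (g' v) (M' v) (x q) (K' v)) ≤ dd (M q) (g q) (g' v) (M' v) m κ' :=
    ww_gt_le h.self_of_nhds hM hm hm0 hK hmκ hv
  have h5 : (fun k => g' v k + M' v k * x q k - (K' v) (x q) k) =
      gt (g' v) (M' v) (x q) (K' v) := rfl
  rw [h5] at h2 h3
  refine ⟨h2.trans (by linarith), h3.trans ?_⟩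
  exact mul_le_mul_of_nonneg_left h4 (by linarith)

/-- the derivative of `M k * x k`: again controlled by the majorant -/
theorem sys_bound_M {M : E → ι → ℝ} {K : E → (ι → ℝ) →L[ℝ] (ι → ℝ)} {g x : E → ι → ℝ}
    {C : E → ℝ} {q : E} {M' g' x' : E →L[ℝ] ι → ℝ} {K' : E →L[ℝ] (ι → ℝ) →L[ℝ] (ι → ℝ)}
    {C' : E →L[ℝ] ℝ} (h : ∀ᶠ q in 𝓝 q, IsSol (M q) (K q) (g q) (x q) (C q))
    (hM' : HasFDerivAt M M' q) (hK' : HasFDerivAt K K' q) (hg' : HasFDerivAt g g' q)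
    (hx' : HasFDerivAt x x' q) (hC' : HasFDerivAt C C' q) (hM : ∀ k, m ≤ M q k)
    (hm : ∃ l, M q l ≤ m) (hm0 : 0 < m) (hK : ‖K q‖ ≤ κ) (hmκ : 4 * κ ≤ m) {v : E}
    (hv : ‖K' v‖ ≤ κ') (k : ι) :
    |M' v k * x q k + M q k * x' v k| ≤
      3 * m * dd (M q) (g q) (g' v) (M' v) m κ' + |g' v k| + 4 * κ' * ww (M q) (g q) := by
  have hκ'0 : 0 ≤ κ' := (norm_nonneg _).trans hv
  obtain ⟨h2, h3⟩ := sys_bound h hM' hK' hg' hx' hC' hM hm hm0 hK hmκ hv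
  have h1 := (IsSol.deriv h hM' hK' hg' hx' hC' v).1 k
  have h4 : M' v k * x q k + M q k * x' v k =
      C' v + K q (x' v) k + (K' v) (x q) k - g' v k := by linarith
  rw [h4]
  have h5 := abs_K_le hK (x' v) k
  have h6 := abs_K_le hv (x q) k
  have hx := (h.self_of_nhds.bound hM hm hm0 hK hmκ).1
  have h7 : κ' * ‖x q‖ ≤ 4 * κ' * ww (M q) (g q) := by
    calc κ' * ‖x q‖ ≤ κ' * (4 * ww (M q) (g q)) := mul_le_mul_of_nonneg_left hx hκ'0
      _ = _ := by ring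
  have h8 : κ * ‖x' v‖ ≤ m * dd (M q) (g q) (g' v) (M' v) m κ' := by
    have h9 : κ * ‖x' v‖ ≤ m / 4 * ‖x' v‖ :=
      mul_le_mul_of_nonneg_right (by linarith) (norm_nonneg _)
    have h10 : m / 4 * ‖x' v‖ ≤ m / 4 * (4 * dd (M q) (g q) (g' v) (M' v) m κ') :=
      mul_le_mul_of_nonneg_left h2 (by linarith)
    linarith
  have h11 := abs_add_le (C' v + K q (x' v) k + (K' v) (x q) k) (-g' v k)
  have h12 := abs_add_le (C' v + K q (x' v) k) ((K' v) (x q) k)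
  have h13 := abs_add_le (C' v) (K q (x' v) k)
  rw [abs_neg, ← sub_eq_add_neg] at h11
  linarith

variable {P : Type*} [NormedAddCommGroup P] [NormedSpace ℝ P]

/-- **the bound of the derivative of the potential on the core**, every direction `v` -/
theorem UC_sys_bound {A : ℝ} {K0 : (ι → ℂ) →L[ℂ] ℂ} {Kc' : P × ℂ →L[ℝ] ((ι → ℂ) →L[ℂ] ℂ)}
    {p' : E →L[ℝ] P} {z' : E →L[ℝ] ℂ} {β : ι → ℝ}
    {M : E → ι → ℝ} {K : E → (ι → ℝ) →L[ℝ] (ι → ℝ)} {g x : E → ι → ℝ}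
    {C : E → ℝ} {q : E} {M' g' x' : E →L[ℝ] ι → ℝ} {K' : E →L[ℝ] (ι → ℝ) →L[ℝ] (ι → ℝ)}
    {C' : E →L[ℝ] ℝ} (hA0 : ‖K0‖ ≤ A) (hA1 : ‖Kc'‖ ≤ A)
    (h : ∀ᶠ q in 𝓝 q, IsSol (M q) (K q) (g q) (x q) (C q))
    (hM' : HasFDerivAt M M' q) (hK' : HasFDerivAt K K' q) (hg' : HasFDerivAt g g' q)
    (hx' : HasFDerivAt x x' q) (hC' : HasFDerivAt C C' q) (hM : ∀ k, m ≤ M q k)
    (hm : ∃ l, M q l ≤ m) (hm0 : 0 < m) (hK : ‖K q‖ ≤ κ) (hmκ : 4 * κ ≤ m) {v : E}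
    (hv : ‖K' v‖ ≤ κ') :
    |UCD K0 Kc' (cf β x q) p' z' C' (cfD x') v| ≤
      (2 * m + 4 * A) * dd (M q) (g q) (g' v) (M' v) m κ' +
        A * (4 * ww (M q) (g q) + ‖β‖) * (‖p' v‖ + ‖z' v‖) := by
  have hA : 0 ≤ A := (norm_nonneg K0).trans hA0
  obtain ⟨h2, h3⟩ := sys_bound h hM' hK' hg' hx' hC' hM hm hm0 hK hmκ hv
  have hx := (h.self_of_nhds.bound hM hm hm0 hK hmκ).1
  have h4 := UC_bound (c0 := cf β x q) (p' := p') (x' := z') (C' := C') (c' := cfD x') hA0 hA1 v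
  have h5 := norm_cfD_le x' v
  have h6 := norm_cf_le β x q
  have h7 : ‖cf β x q‖ * (‖p' v‖ + ‖z' v‖) ≤
      (4 * ww (M q) (g q) + ‖β‖) * (‖p' v‖ + ‖z' v‖) :=
    mul_le_mul_of_nonneg_right (by linarith) (by positivity)
  have h8 : ‖cf β x q‖ * (‖p' v‖ + ‖z' v‖) + ‖cfD x' v‖ ≤
      (4 * ww (M q) (g q) + ‖β‖) * (‖p' v‖ + ‖z' v‖) +
        4 * dd (M q) (g q) (g' v) (M' v) m κ' := by linarith
  have h9 := mul_le_mul_of_nonneg_left h8 hA
  calc |UCD K0 Kc' (cf β x q) p' z' C' (cfD x') v|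
      ≤ |C' v| + A * (‖cf β x q‖ * (‖p' v‖ + ‖z' v‖) + ‖cfD x' v‖) := h4
    _ ≤ 2 * m * dd (M q) (g q) (g' v) (M' v) m κ' +
        A * ((4 * ww (M q) (g q) + ‖β‖) * (‖p' v‖ + ‖z' v‖) +
        4 * dd (M q) (g q) (g' v) (M' v) m κ') := add_le_add h3 h9
    _ = _ := by ring

end

/-! ### the majorant in the coordinate directions -/

/-- the majorant is bounded in terms of `‖g‖` only -/
theorem dd_le (hM : ∀ k, m ≤ M k) (hm0 : 0 < m) (hκ' : 0 ≤ κ') :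
    dd M g g' M' m κ' ≤ ww M g' + (3 * Fintype.card ι + 1) * ‖g‖ * ∑ k, |M' k| / M k ^ 2 +
      4 * Fintype.card ι ^ 2 * κ' * ‖g‖ / m ^ 2 := by
  have hM0 : ∀ k, 0 < M k := fun k => hm0.trans_le (hM k)
  have h1 := ww_le_norm hM0 hm0 hM g
  have h3 : 0 ≤ ∑ k, |M' k| / M k ^ 2 :=
    sum_nonneg fun k _ => div_nonneg (abs_nonneg _) (sq_nonneg _)
  unfold dd
  have h4 : 3 * m * ww M g + ‖g‖ ≤ (3 * Fintype.card ι + 1) * ‖g‖ := by
    have h5 : 3 * m * ww M g ≤ 3 * m * (Fintype.card ι * (‖g‖ / m)) :=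
      mul_le_mul_of_nonneg_left h1 (by linarith)
    have h6 : 3 * m * (Fintype.card ι * (‖g‖ / m)) = 3 * Fintype.card ι * ‖g‖ := by
      field_simp
    linarith
  have h7 : 4 * κ' * (Fintype.card ι / m) * ww M g ≤
      4 * Fintype.card ι ^ 2 * κ' * ‖g‖ / m ^ 2 := by
    calc 4 * κ' * (Fintype.card ι / m) * ww M g
        ≤ 4 * κ' * (Fintype.card ι / m) * (Fintype.card ι * (‖g‖ / m)) :=
          mul_le_mul_of_nonneg_left h1 (by positivity)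
      _ = _ := by
          field_simp
  exact add_le_add (add_le_add le_rfl (mul_le_mul_of_nonneg_right h4 h3)) h7

/-- a direction along which `M` and `g` do not move -/
theorem dd_rigid (hM : ∀ k, m ≤ M k) (hm0 : 0 < m) (hκ' : 0 ≤ κ') :
    dd M g 0 0 m κ' ≤ 4 * Fintype.card ι ^ 2 * κ' * ‖g‖ / m ^ 2 := by
  refine (dd_le hM hm0 hκ').trans (le_of_eq ?_)
  have h1 : ww M (0 : ι → ℝ) = 0 := by simp [ww]
  rw [h1]
  simp

/-- the direction of one length: `M' = b e_l` -/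
theorem dd_single [DecidableEq ι] (hM : ∀ k, m ≤ M k) (hm0 : 0 < m) (hκ' : 0 ≤ κ') (l : ι)
    (b : ℝ) :
    dd M g 0 (Pi.single l b) m κ' ≤ (3 * Fintype.card ι + 1) * ‖g‖ * (|b| / M l ^ 2) +
      4 * Fintype.card ι ^ 2 * κ' * ‖g‖ / m ^ 2 := by
  refine (dd_le hM hm0 hκ').trans (le_of_eq ?_)
  have h1 : ww M (0 : ι → ℝ) = 0 := by simp [ww]
  have h2 : ∑ k, |(Pi.single l b : ι → ℝ) k| / M k ^ 2 = |b| / M l ^ 2 := by
    rw [Finset.sum_eq_single l]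
    · simp
    · intro k _ hk
      simp [Pi.single_eq_of_ne hk]
    · simp
  rw [h1, h2, zero_add]

omit [Nonempty ι] in
/-- nothing moves -/
theorem dd_zero : dd M g 0 0 m 0 = 0 := by
  have h1 : ww M (0 : ι → ℝ) = 0 := by simp [ww]
  unfold dd
  rw [h1]
  simp

end Vale.Agent.P273.H545
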