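import Vale.Agent.P273.H545.KapAlpha

/-!
# P273, LIM: limits of the base functions of 722 along `y = N Y + O(1)`, `N → ∞`

`BSeq F N p Y α`: the base points `p j` have `(p j).1 k / N j → Y k > 0` and constant angles `α`.
-/

set_option linter.unusedSectionVars false

open Set Filter Topology Metric Complex Finset

noncomputable section

namespace Vale.Agent.P273.H545

open H722 H722.KapData

variable {ι : Type} [Fintype ι] [Nonempty ι]

/-- the smallest length -/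
def mm (p : Pa ι) : ℝ := univ.inf' univ_nonempty p.1

theorem mm_le (p : Pa ι) (k : ι) : mm p ≤ p.1 k := Finset.inf'_le _ (mem_univ k)

theorem exists_mm (p : Pa ι) : ∃ l, p.1 l ≤ mm p := by
  obtain ⟨l, -, hl⟩ := Finset.exists_mem_eq_inf' (s := (univ : Finset ι)) univ_nonempty p.1
  exact ⟨l, hl.ge⟩

theorem le_mm {p : Pa ι} {a : ℝ} (h : ∀ k, a ≤ p.1 k) : a ≤ mm p :=
  Finset.le_inf' _ _ fun k _ => h k

/-- **all points with long necks are big** -/
theorem exists_big (D : KapData ι) :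
    ∃ N₀ : ℝ, 1 ≤ N₀ ∧ ∀ p : Pa ι, (∀ k, N₀ ≤ p.1 k) → D.Big (mm p) p := by
  refine ⟨max 1 (max (8 * D.κ + 1) (1 - Real.log D.ρ)), le_max_left _ _, fun p hp => ?_⟩
  have h1 : ∀ k, 8 * D.κ + 1 ≤ p.1 k := fun k =>
    ((le_max_left _ _).trans (le_max_right _ _)).trans (hp k)
  have h2 : ∀ k, 1 - Real.log D.ρ ≤ p.1 k := fun k =>
    ((le_max_right _ _).trans (le_max_right _ _)).trans (hp k)
  refine ⟨mm_le p, exists_mm p, ?_, ?_⟩
  · have := le_mm h1
    linarith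
  · refine (norm_ep_le h2).trans_lt ?_
    have h3 : Real.exp (-(1 - Real.log D.ρ)) < Real.exp (Real.log D.ρ) :=
      Real.exp_lt_exp.2 (by linarith)
    rwa [Real.exp_log D.ρ_pos] at h3

/-! ### sequences of base points -/

variable {J : Type*} {F : Filter J} {N : J → ℝ} {p : J → Pa ι} {Y α : ι → ℝ}

/-- `(p j).1 / N j → Y`, `Y > 0`, constant angles -/
structure BSeq (F : Filter J) (N : J → ℝ) (p : J → Pa ι) (Y α : ι → ℝ) : Prop where
  hN : Tendsto N F atTop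
  pos : ∀ k, 0 < Y k
  lim : ∀ k, Tendsto (fun j => (p j).1 k / N j) F (𝓝 (Y k))
  ang : ∀ j, (p j).2 = α

theorem tendsto_of_div {s : J → ℝ} {a : ℝ} (hN : Tendsto N F atTop) (ha : 0 < a)
    (hs : Tendsto (fun j => s j / N j) F (𝓝 a)) : Tendsto s F atTop := by
  have h1 : Tendsto (fun j => s j / N j * N j) F atTop := hs.pos_mul_atTop ha hN
  refine h1.congr' ?_
  filter_upwards [hN.eventually_gt_atTop 0] with j hj
  exact div_mul_cancel₀ _ hj.ne'

/-- `N exp (- s) → 0` if `s / N → a > 0` -/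
theorem tendsto_mul_exp {s : J → ℝ} {a : ℝ} (hN : Tendsto N F atTop) (ha : 0 < a)
    (hs : Tendsto (fun j => s j / N j) F (𝓝 a)) :
    Tendsto (fun j => N j * Real.exp (-(s j))) F (𝓝 0) := by
  have h1 := tendsto_of_div hN ha hs
  have h2 : Tendsto (fun j => s j * Real.exp (-(s j))) F (𝓝 0) := by
    have h3 := (Real.tendsto_pow_mul_exp_neg_atTop_nhds_zero 1).comp h1
    refine h3.congr fun j => ?_
    simp
  have h4 : Tendsto (fun j => (s j / N j)⁻¹) F (𝓝 a⁻¹) := hs.inv₀ ha.ne'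
  have h5 := h4.mul h2
  rw [mul_zero] at h5
  refine h5.congr' ?_
  filter_upwards [h1.eventually_gt_atTop 0, hN.eventually_gt_atTop 0] with j hj hNj
  rw [inv_div]
  field_simp

theorem tendsto_exp_of_div {s : J → ℝ} {a : ℝ} (hN : Tendsto N F atTop) (ha : 0 < a)
    (hs : Tendsto (fun j => s j / N j) F (𝓝 a)) :
    Tendsto (fun j => Real.exp (-(s j))) F (𝓝 0) :=
  Real.tendsto_exp_neg_atTop_nhds_zero.comp (tendsto_of_div hN ha hs)

namespace BSeq

variable (hp : BSeq F N p Y α) (D : KapData ι) (ξ β : ι → ℝ)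

include hp

theorem y_atTop (k : ι) : Tendsto (fun j => (p j).1 k) F atTop :=
  tendsto_of_div hp.hN (hp.pos k) (hp.lim k)

theorem ev_ge (a : ℝ) : ∀ᶠ j in F, ∀ k, a ≤ (p j).1 k :=
  Filter.eventually_all.2 fun k => (hp.y_atTop k).eventually_ge_atTop a

theorem big : ∀ᶠ j in F, D.Big (mm (p j)) (p j) := by
  obtain ⟨N₀, -, h⟩ := exists_big D
  exact (hp.ev_ge N₀).mono fun j hj => h _ hj

theorem mm_atTop : Tendsto (fun j => mm (p j)) F atTop := by
  rw [Filter.tendsto_atTop]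
  intro a
  exact (hp.ev_ge a).mono fun j hj => le_mm hj

theorem hΛ (j : J) (k : ι) : |(p j).2 k| ≤ ‖α‖ := by
  rw [hp.ang j]
  exact norm_le_pi_norm α k

theorem inv_y (k : ι) : Tendsto (fun j => ((p j).1 k)⁻¹) F (𝓝 0) :=
  (hp.y_atTop k).inv_tendsto_atTop

theorem const_div_mm (c : ℝ) : Tendsto (fun j => c / mm (p j)) F (𝓝 0) :=
  hp.mm_atTop.const_div_atTop c

theorem const_div_y (c : ℝ) (k : ι) : Tendsto (fun j => c / (p j).1 k) F (𝓝 0) :=
  (hp.y_atTop k).const_div_atTop c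

/-- `N / y k → 1 / Y k` -/
theorem N_div_y (k : ι) : Tendsto (fun j => N j / (p j).1 k) F (𝓝 (1 / Y k)) := by
  have h1 := (hp.lim k).inv₀ (hp.pos k).ne'
  rw [← one_div] at h1
  refine h1.congr fun j => ?_
  rw [inv_div]

/-- the weights converge -/
theorem rr_lim (k : ι) : Tendsto (fun j => rr (p j).1 k) F (𝓝 (rr Y k)) := by
  have h1 : ∀ l, Tendsto (fun j => N j * ((p j).1 l)⁻¹) F (𝓝 ((Y l)⁻¹)) := by
    intro l
    have := hp.N_div_y l
    rw [one_div] at this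
    refine this.congr fun j => ?_
    rw [div_eq_mul_inv]
  have h2 : Tendsto (fun j => ∑ l, N j * ((p j).1 l)⁻¹) F (𝓝 (∑ l, (Y l)⁻¹)) :=
    tendsto_finsetSum _ fun l _ => h1 l
  have h3 := (h1 k).div h2 (sum_inv_pos hp.pos).ne'
  refine h3.congr' ?_
  filter_upwards [hp.hN.eventually_gt_atTop 0] with j hj
  unfold rr
  rw [Pi.div_apply, ← mul_sum]
  exact mul_div_mul_left _ _ hj.ne'

/-- the limit of the right hand side -/
theorem g0_eq (j : J) : D.g0 ξ β (p j) = D.g0 ξ β (0, α) := by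
  funext k
  unfold KapData.g0
  rw [hp.ang j]

end BSeq

/-- the limit of the value on the core -/
def lamB (D : KapData ι) (ξ β : ι → ℝ) (Y α : ι → ℝ) : ℝ :=
  ∑ k, rr Y k * D.g0 ξ β (0, α) k

/-- the limit of the weighted slopes -/
def wB (D : KapData ι) (ξ β : ι → ℝ) (Y α : ι → ℝ) (k : ι) : ℝ :=
  lamB D ξ β Y α - D.g0 ξ β (0, α) k

namespace BSeq

variable (hp : BSeq F N p Y α) (D : KapData ι) (ξ β : ι → ℝ)

include hp

theorem sum_lim : Tendsto (fun j => ∑ k, rr (p j).1 k * D.g0 ξ β (p j) k) F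
    (𝓝 (lamB D ξ β Y α)) := by
  refine tendsto_finsetSum _ fun k _ => ?_
  have h1 := (hp.rr_lim k).mul_const (D.g0 ξ β (0, α) k)
  refine h1.congr fun j => ?_
  rw [hp.g0_eq]

theorem CC_lim : Tendsto (fun j => D.CC ξ β (p j)) F (𝓝 (lamB D ξ β Y α)) := by
  have h1 : Tendsto (fun j => D.CC ξ β (p j) - ∑ k, rr (p j).1 k * D.g0 ξ β (p j) k) F
      (𝓝 0) := by
    refine squeeze_zero_norm' ?_ (hp.const_div_mm (D.A0 ‖α‖ * sz ξ β))
    filter_upwards [hp.big D] with j hj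
    exact (bounds_v hj (hp.hΛ j) ξ β).2.2.2.1
  have h2 := h1.add (hp.sum_lim D ξ β)
  rw [zero_add] at h2
  exact h2.congr fun j => by ring

theorem wf_lim (k : ι) : Tendsto (fun j => D.wf ξ β (p j) k) F (𝓝 (wB D ξ β Y α k)) := by
  have h1 : Tendsto (fun j => D.wf ξ β (p j) k -
      (∑ k, rr (p j).1 k * D.g0 ξ β (p j) k - D.g0 ξ β (p j) k)) F (𝓝 0) := by
    refine squeeze_zero_norm' ?_ (hp.const_div_mm (D.A0 ‖α‖ * sz ξ β))
    filter_upwards [hp.big D] with j hj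
    exact (bounds_v hj (hp.hΛ j) ξ β).2.2.2.2 k
  have h3 : Tendsto (fun j => D.g0 ξ β (p j) k) F (𝓝 (D.g0 ξ β (0, α) k)) := by
    refine tendsto_const_nhds.congr fun j => ?_
    rw [hp.g0_eq]
  have h2 := h1.add ((hp.sum_lim D ξ β).sub h3)
  rw [zero_add] at h2
  exact h2.congr fun j => by ring

theorem exp_y (k : ι) : Tendsto (fun j => Real.exp (-((p j).1 k))) F (𝓝 0) :=
  tendsto_exp_of_div hp.hN (hp.pos k) (hp.lim k)

theorem N_exp_y (k : ι) : Tendsto (fun j => N j * Real.exp (-((p j).1 k))) F (𝓝 0) :=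
  tendsto_mul_exp hp.hN (hp.pos k) (hp.lim k)

/-- the coefficients are bounded -/
theorem cc_bdd : ∀ᶠ j in F, ‖cc D ξ β (p j)‖ ≤ D.A0 ‖α‖ * sz ξ β / 5 := by
  filter_upwards [hp.big D] with j hj
  exact (nums hj (hp.hΛ j) ξ β).2.2.2

variable [DecidableEq ι]

theorem of_scaled {f : J → ℝ} {k : ι} {a c : ℝ}
    (h : ∀ᶠ j in F, |(p j).1 k * f j - a| ≤ c / (p j).1 k) :
    Tendsto (fun j => N j * f j) F (𝓝 (a / Y k)) := by
  have h1 : Tendsto (fun j => (p j).1 k * f j - a) F (𝓝 0) :=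
    squeeze_zero_norm' h (hp.const_div_y c k)
  have h2 : Tendsto (fun j => (p j).1 k * f j) F (𝓝 a) := by
    have := h1.add_const a
    rw [zero_add] at this
    exact this.congr fun j => by ring
  have h3 := (hp.N_div_y k).mul h2
  rw [one_div, inv_mul_eq_div] at h3
  refine h3.congr' ?_
  filter_upwards [(hp.y_atTop k).eventually_gt_atTop 0] with j hj
  field_simp

theorem of_scaled' {f g : J → ℝ} {k : ι} {a c : ℝ}
    (h : ∀ᶠ j in F, |(p j).1 k * f j - g j| ≤ c / (p j).1 k) (hg : Tendsto g F (𝓝 a)) :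
    Tendsto (fun j => N j * f j) F (𝓝 (a / Y k)) := by
  have h1 : Tendsto (fun j => (p j).1 k * f j - g j) F (𝓝 0) :=
    squeeze_zero_norm' h (hp.const_div_y c k)
  have h2 : Tendsto (fun j => (p j).1 k * f j) F (𝓝 a) := by
    have := h1.add hg
    rw [zero_add] at this
    exact this.congr fun j => by ring
  have h3 := (hp.N_div_y k).mul h2
  rw [one_div, inv_mul_eq_div] at h3
  refine h3.congr' ?_
  filter_upwards [(hp.y_atTop k).eventually_gt_atTop 0] with j hj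
  field_simp

theorem CC_y_lim (l : ι) : Tendsto (fun j => N j * fderiv ℝ (D.CC ξ β) (p j) (ey l)) F
    (𝓝 (rr Y l * wB D ξ β Y α l / Y l)) := by
  refine hp.of_scaled' (k := l) (g := fun j => rr (p j).1 l * D.wf ξ β (p j) l)
    (c := D.A0 ‖α‖ * sz ξ β) ?_ ((hp.rr_lim l).mul (hp.wf_lim D ξ β l))
  filter_upwards [hp.big D] with j hj
  exact (bounds_y hj (hp.hΛ j) ξ β l).2.2.1

theorem wf_y_lim (l k : ι) :
    Tendsto (fun j => N j * fderiv ℝ (fun q => D.wf ξ β q k) (p j) (ey l)) F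
    (𝓝 (rr Y l * wB D ξ β Y α l / Y l)) := by
  refine hp.of_scaled' (k := l) (g := fun j => rr (p j).1 l * D.wf ξ β (p j) l)
    (c := D.A0 ‖α‖ * sz ξ β) ?_ ((hp.rr_lim l).mul (hp.wf_lim D ξ β l))
  filter_upwards [hp.big D] with j hj
  exact (bounds_y hj (hp.hΛ j) ξ β l).2.2.2 k

theorem CC_a_lim (l : ι) : Tendsto (fun j => fderiv ℝ (D.CC ξ β) (p j) (ea l)) F
    (𝓝 (rr Y l * (β l / (2 * Real.pi)))) := by
  have h1 : Tendsto (fun j => fderiv ℝ (D.CC ξ β) (p j) (ea l) -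
      rr (p j).1 l * (β l / (2 * Real.pi))) F (𝓝 0) := by
    refine squeeze_zero_norm' ?_ (hp.const_div_y (D.A0 ‖α‖ * sz ξ β) l)
    filter_upwards [hp.big D] with j hj
    exact (bounds_a hj (hp.hΛ j) ξ β l).2.2.1
  have h2 := h1.add ((hp.rr_lim l).mul_const (β l / (2 * Real.pi)))
  rw [zero_add] at h2
  exact h2.congr fun j => by ring

theorem wf_a_lim (l k : ι) :
    Tendsto (fun j => fderiv ℝ (fun q => D.wf ξ β q k) (p j) (ea l)) F
    (𝓝 ((rr Y l - if k = l then 1 else 0) * (β l / (2 * Real.pi)))) := by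
  have h1 : Tendsto (fun j => fderiv ℝ (fun q => D.wf ξ β q k) (p j) (ea l) -
      (rr (p j).1 l - if k = l then 1 else 0) * (β l / (2 * Real.pi))) F (𝓝 0) := by
    refine squeeze_zero_norm' ?_ (hp.const_div_y (D.A0 ‖α‖ * sz ξ β) l)
    filter_upwards [hp.big D] with j hj
    exact (bounds_a hj (hp.hΛ j) ξ β l).2.2.2 k
  have h2 := h1.add (((hp.rr_lim l).sub_const (if k = l then 1 else 0)).mul_const
    (β l / (2 * Real.pi)))
  rw [zero_add] at h2
  exact h2.congr fun j => by ring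

/-- the terms that disappear in the direction `y l`, scale `N` -/
theorem small_y (l : ι) : Tendsto (fun j => N j * (‖cc D ξ β (p j)‖ * ‖dep (p j) (ey l)‖ +
    ‖ccD D ξ β (p j) (ey l)‖)) F (𝓝 0) := by
  have hN0 := hp.hN.eventually_gt_atTop 0
  have h1 : Tendsto (fun j => D.A0 ‖α‖ * sz ξ β / 5 * (N j * Real.exp (-((p j).1 l))) +
      4 * (D.A0 ‖α‖ * sz ξ β) * (N j / (p j).1 l * ((p j).1 l)⁻¹)) F (𝓝 0) := by
    have a1 := (hp.N_exp_y l).const_mul (D.A0 ‖α‖ * sz ξ β / 5)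
    have a2 := ((hp.N_div_y l).mul (hp.inv_y l)).const_mul (4 * (D.A0 ‖α‖ * sz ξ β))
    have a3 := a1.add a2
    simpa using a3
  refine squeeze_zero_norm' ?_ h1
  filter_upwards [hp.big D, hN0, hp.cc_bdd D ξ β, (hp.y_atTop l).eventually_gt_atTop 0]
    with j hj hNj hc hy
  have h2 := (norm_ccD_le D ξ β (p j) (ey l)).trans (norm_xx_y hj (hp.hΛ j) ξ β l)
  have h3 := norm_dep_ey (p j) l
  have hZ := A0sz_nonneg hj (hp.hΛ j) ξ β
  rw [Real.norm_eq_abs, abs_of_nonneg (by positivity)]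
  calc N j * (‖cc D ξ β (p j)‖ * ‖dep (p j) (ey l)‖ + ‖ccD D ξ β (p j) (ey l)‖)
      ≤ N j * (D.A0 ‖α‖ * sz ξ β / 5 * Real.exp (-((p j).1 l)) +
        4 * (D.A0 ‖α‖ * sz ξ β) / (p j).1 l ^ 2) :=
        mul_le_mul_of_nonneg_left (add_le_add (mul_le_mul hc h3 (norm_nonneg _)
          (by positivity)) h2) hNj.le
    _ = _ := by
        field_simp

/-- the terms that disappear in the direction `α l`, scale `1` -/
theorem small_a (l : ι) : Tendsto (fun j => ‖cc D ξ β (p j)‖ * ‖dep (p j) (ea l)‖ +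
    ‖ccD D ξ β (p j) (ea l)‖) F (𝓝 0) := by
  have h1 : Tendsto (fun j => D.A0 ‖α‖ * sz ξ β / 5 * Real.exp (-((p j).1 l)) +
      2 * (D.A0 ‖α‖ * sz ξ β) / mm (p j)) F (𝓝 0) := by
    have a1 := (hp.exp_y l).const_mul (D.A0 ‖α‖ * sz ξ β / 5)
    have a3 := a1.add (hp.const_div_mm (2 * (D.A0 ‖α‖ * sz ξ β)))
    simpa using a3
  refine squeeze_zero_norm' ?_ h1
  filter_upwards [hp.big D, hp.cc_bdd D ξ β] with j hj hc
  have h2 := (norm_ccD_le D ξ β (p j) (ea l)).trans (norm_xx_a hj (hp.hΛ j) ξ β l)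
  have h3 := norm_dep_ea (p j) l
  have hZ := A0sz_nonneg hj (hp.hΛ j) ξ β
  rw [Real.norm_eq_abs, abs_of_nonneg (by positivity)]
  exact add_le_add (mul_le_mul hc h3 (norm_nonneg _) (by positivity)) h2

/-! ### classes with `β = 0` -/

omit [DecidableEq ι] in
/-- `N wa` is bounded -/
theorem N_wa : Tendsto (fun j => N j * wa ξ (p j)) F (𝓝 (∑ k, |ξ k| / Y k)) := by
  have h1 : ∀ k, Tendsto (fun j => N j * (|ξ k| / (p j).1 k)) F (𝓝 (|ξ k| / Y k)) := by
    intro k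
    have := (hp.N_div_y k).const_mul |ξ k|
    rw [mul_one_div] at this
    refine this.congr fun j => ?_
    ring
  have h2 : Tendsto (fun j => ∑ k, N j * (|ξ k| / (p j).1 k)) F (𝓝 (∑ k, |ξ k| / Y k)) :=
    tendsto_finsetSum _ fun k _ => h1 k
  refine h2.congr fun j => ?_
  unfold wa
  rw [mul_sum]

theorem N_wa_mul {t : J → ℝ} (ht : Tendsto t F (𝓝 0)) (c : ℝ) :
    Tendsto (fun j => N j * (c * wa ξ (p j) * t j)) F (𝓝 0) := by
  have h1 := ((hp.N_wa ξ).mul ht).const_mul c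
  rw [mul_zero, mul_zero] at h1
  exact h1.congr fun j => by ring

end BSeq

end Vale.Agent.P273.H545
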