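import Vale.Agent.P273.H545.LimBase
import Vale.Agent.P273.H545.NeckTheta
import Vale.Agent.P273.H545.CoreTheta

/-!
# P273, LIM: limits of the legs of the explicit potentials

Along a sequence of base points `BSeq F N p Y α` (`y = N Y + O(1)`), mark in the neck `k` at depth
`S0` with `S0 / N → s`, directions `v j`:

* `limU`: gap direction of size type, scale `N`;
* `limPh`, `limPh0`: gap direction of angle type (`limPh0`: `β = 0`, scale `N`);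
* `limAl`, `limAl0`: direction `α l`;
* `limEul`: direction `y l`, scale `N`;
* `limCEul`, `limCAl`, `limCAl0`: the cores.

`wB = λ - g`, `lamB = λ` are the limits of the weighted slopes and of the value on the core.
-/

set_option linter.unusedSectionVars false

open Set Filter Topology Metric Complex

noncomputable section

namespace Vale.Agent.P273.H545

open H722 H722.KapData H803

variable {ι : Type} [Fintype ι] [Nonempty ι] [DecidableEq ι]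
  {E : Type*} [NormedAddCommGroup E] [NormedSpace ℝ E]
  {J : Type*} {F : Filter J} {N : J → ℝ} {p : J → Pa ι} {Y α : ι → ℝ}
  {D : KapData ι} {h0 h1 : J → (ι → ℂ) →L[ℂ] ℂ}
  {hX' hY' : J → (ι → ℂ) × ℂ →L[ℝ] ((ι → ℂ) →L[ℂ] ℂ)} {k l : ι}
  {B : E →L[ℝ] Pa ι} {S' Θ' : E →L[ℝ] ℝ} {S0 Θ0 : J → ℝ} {v : J → E} {A s : ℝ}

/-- bounds of the regular factor -/
def HB (F : Filter J) (A : ℝ) (h0 h1 : J → (ι → ℂ) →L[ℂ] ℂ)
    (hX' hY' : J → (ι → ℂ) × ℂ →L[ℝ] ((ι → ℂ) →L[ℂ] ℂ)) : Prop :=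
  ∀ᶠ j in F, ‖h0 j‖ ≤ A ∧ ‖h1 j‖ ≤ A ∧ ‖hX' j‖ ≤ A ∧ ‖hY' j‖ ≤ A

theorem HB.nonneg [F.NeBot] (hA : HB F A h0 h1 hX' hY') : 0 ≤ A := by
  obtain ⟨j, hj, -⟩ := hA.exists
  exact (norm_nonneg _).trans hj

theorem tendsto_of_sub {f g : J → ℝ} {a : ℝ} (h : Tendsto (fun j => f j - g j) F (𝓝 0))
    (hg : Tendsto g F (𝓝 a)) : Tendsto f F (𝓝 a) := by
  have := h.add hg
  rw [zero_add] at this
  exact this.congr fun j => by ring

variable (hp : BSeq F N p Y α) (hA : HB F A h0 h1 hX' hY')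
  (hS : ∀ᶠ j in F, 0 ≤ S0 j ∧ S0 j ≤ (p j).1 k) (ξ β : ι → ℝ)

include hp hA hS

/-- **size of a gap**, scale `N` -/
theorem limU {σ : ℝ} (hB : ∀ᶠ j in F, B (v j) = 0) (hΘ : ∀ᶠ j in F, Θ' (v j) = 0)
    (hσ : Tendsto (fun j => S' (v j)) F (𝓝 σ))
    (hd : Tendsto (fun j => N j * ((Real.exp (-(S0 j)) + Real.exp (-((p j).1 k - S0 j))) *
      |S' (v j)|)) F (𝓝 0)) :
    Tendsto (fun j => N j * UNKD D (h0 j) (h1 j) (hX' j) (hY' j) ξ β k (p j) (S0 j) (Θ0 j)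
      B S' Θ' (v j)) F (𝓝 (-(2 * wB D ξ β Y α k / Y k * σ))) := by
  have h2 : Tendsto (fun j => N j * (-(2 * D.wf ξ β (p j) k / (p j).1 k * S' (v j)))) F
      (𝓝 (-(2 * wB D ξ β Y α k / Y k * σ))) := by
    have a1 := ((((hp.N_div_y k).mul (hp.wf_lim D ξ β k)).mul hσ).const_mul 2).neg
    have e : -(2 * (1 / Y k * wB D ξ β Y α k * σ)) = -(2 * wB D ξ β Y α k / Y k * σ) := by ring
    rw [e] at a1
    exact a1.congr fun j => by ring
  refine tendsto_of_sub ?_ h2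
  have h3 := (hd.const_mul (2 * A * (D.A0 ‖α‖ * sz ξ β / 5)))
  rw [mul_zero] at h3
  refine squeeze_zero_norm' ?_ h3
  filter_upwards [hp.big D, hA, hS, hB, hΘ, hp.cc_bdd D ξ β, hp.hN.eventually_gt_atTop 0]
    with j hj hAj hSj hBj hΘj hc hNj
  have hA0 : 0 ≤ A := (norm_nonneg _).trans hAj.1
  have h4 := UNK_gap_exp (D := D) (ξ := ξ) (β := β) (Θ0 := Θ0 j) (B := B) (S' := S') (Θ' := Θ')
    hAj.1 hAj.2.1 hAj.2.2.1 hAj.2.2.2 hSj.1 hSj.2 hBj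
  rw [hΘj, mul_zero, sub_zero, abs_zero, add_zero] at h4
  rw [← mul_sub, Real.norm_eq_abs, abs_mul, abs_of_pos hNj]
  have hE : 0 ≤ (Real.exp (-(S0 j)) + Real.exp (-((p j).1 k - S0 j))) * |S' (v j)| := by
    positivity
  calc N j * |UNKD D (h0 j) (h1 j) (hX' j) (hY' j) ξ β k (p j) (S0 j) (Θ0 j) B S' Θ' (v j) -
        -(2 * D.wf ξ β (p j) k / (p j).1 k * S' (v j))|
      ≤ N j * (2 * A * ‖cc D ξ β (p j)‖ * (Real.exp (-(S0 j)) +
        Real.exp (-((p j).1 k - S0 j))) * |S' (v j)|) := mul_le_mul_of_nonneg_left h4 hNj.le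
    _ = (2 * A * ‖cc D ξ β (p j)‖) * (N j * ((Real.exp (-(S0 j)) +
        Real.exp (-((p j).1 k - S0 j))) * |S' (v j)|)) := by ring
    _ ≤ (2 * A * (D.A0 ‖α‖ * sz ξ β / 5)) * (N j * ((Real.exp (-(S0 j)) +
        Real.exp (-((p j).1 k - S0 j))) * |S' (v j)|)) :=
        mul_le_mul_of_nonneg_right (mul_le_mul_of_nonneg_left hc (by positivity)) (by positivity)

/-- **angle of a gap** -/
theorem limPh {θ : ℝ} (hB : ∀ᶠ j in F, B (v j) = 0) (hS0 : ∀ᶠ j in F, S' (v j) = 0)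
    (hθ : Tendsto (fun j => Θ' (v j)) F (𝓝 θ))
    (hd : Tendsto (fun j => (Real.exp (-(S0 j)) + Real.exp (-((p j).1 k - S0 j))) *
      |Θ' (v j)|) F (𝓝 0)) :
    Tendsto (fun j => UNKD D (h0 j) (h1 j) (hX' j) (hY' j) ξ β k (p j) (S0 j) (Θ0 j)
      B S' Θ' (v j)) F (𝓝 (-(β k / Real.pi * θ))) := by
  have h2 : Tendsto (fun j => -(β k / Real.pi * Θ' (v j))) F (𝓝 (-(β k / Real.pi * θ))) :=
    (hθ.const_mul _).neg
  refine tendsto_of_sub ?_ h2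
  have h3 := (hd.const_mul (2 * A * (D.A0 ‖α‖ * sz ξ β / 5)))
  rw [mul_zero] at h3
  refine squeeze_zero_norm' ?_ h3
  filter_upwards [hp.big D, hA, hS, hB, hS0, hp.cc_bdd D ξ β]
    with j hj hAj hSj hBj hS0j hc
  have hA0 : 0 ≤ A := (norm_nonneg _).trans hAj.1
  have h4 := UNK_gap_exp (D := D) (ξ := ξ) (β := β) (Θ0 := Θ0 j) (B := B) (S' := S') (Θ' := Θ')
    hAj.1 hAj.2.1 hAj.2.2.1 hAj.2.2.2 hSj.1 hSj.2 hBj
  rw [hS0j, mul_zero, neg_zero, zero_sub, abs_zero, zero_add] at h4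
  rw [Real.norm_eq_abs]
  calc _ ≤ 2 * A * ‖cc D ξ β (p j)‖ * (Real.exp (-(S0 j)) +
        Real.exp (-((p j).1 k - S0 j))) * |Θ' (v j)| := h4
    _ = (2 * A * ‖cc D ξ β (p j)‖) * ((Real.exp (-(S0 j)) +
        Real.exp (-((p j).1 k - S0 j))) * |Θ' (v j)|) := by ring
    _ ≤ _ := mul_le_mul_of_nonneg_right (mul_le_mul_of_nonneg_left hc (by positivity))
        (by positivity)

/-- **angle of a gap, `β = 0`**, scale `N` -/
theorem limPh0 (hB : ∀ᶠ j in F, B (v j) = 0) (hS0 : ∀ᶠ j in F, S' (v j) = 0)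
    (hd : Tendsto (fun j => (Real.exp (-(S0 j)) + Real.exp (-((p j).1 k - S0 j))) *
      |Θ' (v j)|) F (𝓝 0)) :
    Tendsto (fun j => N j * UNKD D (h0 j) (h1 j) (hX' j) (hY' j) ξ 0 k (p j) (S0 j) (Θ0 j)
      B S' Θ' (v j)) F (𝓝 0) := by
  refine squeeze_zero_norm' ?_ (hp.N_wa_mul ξ hd (16 * A))
  filter_upwards [hp.big D, hA, hS, hB, hS0, hp.hN.eventually_gt_atTop 0]
    with j hj hAj hSj hBj hS0j hNj
  have h4 := (UNK_gap_alpha (Θ0 := Θ0 j) (B := B) (S' := S') (Θ' := Θ') hj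
    hAj.1 hAj.2.1 hAj.2.2.1 hAj.2.2.2 hSj.1 hSj.2 ξ hBj).2
  rw [hS0j, abs_zero, mul_zero, zero_add, zero_add] at h4
  rw [Real.norm_eq_abs, abs_mul, abs_of_pos hNj]
  refine mul_le_mul_of_nonneg_left (h4.trans (le_of_eq ?_)) hNj.le
  ring

/-- **base angle** -/
theorem limAl {θ : ℝ} (hs : Tendsto (fun j => S0 j / N j) F (𝓝 s))
    (hB : ∀ᶠ j in F, B (v j) = ea l) (hS0 : ∀ᶠ j in F, S' (v j) = 0)
    (hθ : Tendsto (fun j => Θ' (v j)) F (𝓝 θ))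
    (hd : Tendsto (fun j => Real.exp (-(S0 j)) * |Θ' (v j)| + Real.exp (-((p j).1 k - S0 j)) *
      |(if k = l then 1 else 0) - Θ' (v j)|) F (𝓝 0)) :
    Tendsto (fun j => UNKD D (h0 j) (h1 j) (hX' j) (hY' j) ξ β k (p j) (S0 j) (Θ0 j)
      B S' Θ' (v j)) F (𝓝 ((1 - 2 * s / Y k) * ((rr Y l - if k = l then 1 else 0) *
        (β l / (2 * Real.pi))) - β k / Real.pi * (θ - if k = l then 1 / 2 else 0))) := by
  have hsy : Tendsto (fun j => 1 - 2 * S0 j / (p j).1 k) F (𝓝 (1 - 2 * s / Y k)) := by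
    have a1 := (((hp.N_div_y k).mul hs).const_mul 2).const_sub 1
    have e : 1 - 2 * (1 / Y k * s) = 1 - 2 * s / Y k := by ring
    rw [e] at a1
    refine a1.congr' ?_
    filter_upwards [hp.hN.eventually_gt_atTop 0] with j hj
    have : N j / (p j).1 k * (S0 j / N j) = S0 j / (p j).1 k := by
      field_simp
    rw [this]
    ring
  have h2 : Tendsto (fun j => (1 - 2 * S0 j / (p j).1 k) *
      fderiv ℝ (fun q => D.wf ξ β q k) (p j) (ea l) -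
      β k / Real.pi * (Θ' (v j) - if k = l then 1 / 2 else 0)) F
      (𝓝 ((1 - 2 * s / Y k) * ((rr Y l - if k = l then 1 else 0) *
        (β l / (2 * Real.pi))) - β k / Real.pi * (θ - if k = l then 1 / 2 else 0))) :=
    (hsy.mul (hp.wf_a_lim D ξ β l k)).sub ((hθ.sub_const _).const_mul _)
  refine tendsto_of_sub ?_ h2
  have h3 := (hd.const_mul (2 * A * (D.A0 ‖α‖ * sz ξ β / 5))).add
    ((hp.small_a D ξ β l).const_mul (2 * A))
  rw [mul_zero, mul_zero, add_zero] at h3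
  refine squeeze_zero_norm' ?_ h3
  filter_upwards [hp.big D, hA, hS, hB, hS0, hp.cc_bdd D ξ β]
    with j hj hAj hSj hBj hS0j hc
  have hA0 : 0 ≤ A := (norm_nonneg _).trans hAj.1
  have h4 := UNK_base_exp (D := D) (ξ := ξ) (β := β) (Θ0 := Θ0 j) (B := B) (S' := S')
    (Θ' := Θ') hAj.1 hAj.2.1 hAj.2.2.1 hAj.2.2.2 hSj.1 hSj.2 (v j)
  rw [hBj, UPK_a hBj hS0j, ea_fst, ea_snd, hS0j, sub_zero, abs_zero, zero_add, zero_add] at h4
  rw [Real.norm_eq_abs]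
  refine h4.trans (add_le_add ?_ le_rfl)
  exact mul_le_mul_of_nonneg_right (mul_le_mul_of_nonneg_left hc (by positivity))
    (by positivity)

/-- **base angle, `β = 0`**, scale `N` -/
theorem limAl0 (hB : ∀ᶠ j in F, B (v j) = ea l) (hS0 : ∀ᶠ j in F, S' (v j) = 0)
    (hd : Tendsto (fun j => Real.exp (-(S0 j)) * |Θ' (v j)| + Real.exp (-((p j).1 k - S0 j)) *
      |(if k = l then 1 else 0) - Θ' (v j)|) F (𝓝 0)) :
    Tendsto (fun j => N j * UNKD D (h0 j) (h1 j) (hX' j) (hY' j) ξ 0 k (p j) (S0 j) (Θ0 j)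
      B S' Θ' (v j)) F (𝓝 0) := by
  have h3 := (hp.exp_y l).add hd
  rw [add_zero] at h3
  refine squeeze_zero_norm' ?_ (hp.N_wa_mul ξ h3 (A2 D + 16 * A + 2 * A * A2 D))
  filter_upwards [hp.big D, hA, hS, hB, hS0, hp.hN.eventually_gt_atTop 0]
    with j hj hAj hSj hBj hS0j hNj
  have h4 := UNK_a_alpha (Θ0 := Θ0 j) (B := B) (S' := S') (Θ' := Θ') hj
    hAj.1 hAj.2.1 hAj.2.2.1 hAj.2.2.2 hSj.1 hSj.2 ξ hBj hS0j
  rw [Real.norm_eq_abs, abs_mul, abs_of_pos hNj]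
  exact mul_le_mul_of_nonneg_left h4 hNj.le

/-- **length**, scale `N` -/
theorem limEul {σ : ℝ} (hs : Tendsto (fun j => S0 j / N j) F (𝓝 s))
    (hB : ∀ᶠ j in F, B (v j) = ey l) (hΘ : ∀ᶠ j in F, Θ' (v j) = 0)
    (hσ : Tendsto (fun j => S' (v j)) F (𝓝 σ))
    (hd : Tendsto (fun j => N j * (Real.exp (-(S0 j)) * |S' (v j)| +
      Real.exp (-((p j).1 k - S0 j)) * |(if k = l then 1 else 0) - S' (v j)|)) F (𝓝 0)) :
    Tendsto (fun j => N j * UNKD D (h0 j) (h1 j) (hX' j) (hY' j) ξ β k (p j) (S0 j) (Θ0 j)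
      B S' Θ' (v j)) F (𝓝 ((1 - 2 * s / Y k) * (rr Y l * wB D ξ β Y α l / Y l) -
        2 * wB D ξ β Y α k / Y k * (σ - s / Y k * if k = l then 1 else 0))) := by
  have hsy0 : Tendsto (fun j => S0 j / (p j).1 k) F (𝓝 (s / Y k)) := by
    have a1 := (hp.N_div_y k).mul hs
    have e : 1 / Y k * s = s / Y k := by ring
    rw [e] at a1
    refine a1.congr' ?_
    filter_upwards [hp.hN.eventually_gt_atTop 0] with j hj
    field_simp
  have hsy : Tendsto (fun j => 1 - 2 * S0 j / (p j).1 k) F (𝓝 (1 - 2 * s / Y k)) := by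
    have a1 := (hsy0.const_mul 2).const_sub 1
    have e : 1 - 2 * (s / Y k) = 1 - 2 * s / Y k := by ring
    rw [e] at a1
    exact a1.congr fun j => by ring
  have h2 : Tendsto (fun j => N j * UPK D ξ β k (p j) (S0 j) B S' Θ' (v j)) F
      (𝓝 ((1 - 2 * s / Y k) * (rr Y l * wB D ξ β Y α l / Y l) -
        2 * wB D ξ β Y α k / Y k * (σ - s / Y k * if k = l then 1 else 0))) := by
    have a1 := hsy.mul (hp.wf_y_lim D ξ β l k)
    have a2 := (((hp.N_div_y k).mul (hp.wf_lim D ξ β k)).const_mul 2).mul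
      (hσ.sub (hsy0.mul_const (if k = l then 1 else 0)))
    have e : 2 * (1 / Y k * wB D ξ β Y α k) * (σ - s / Y k * if k = l then 1 else 0) =
        2 * wB D ξ β Y α k / Y k * (σ - s / Y k * if k = l then 1 else 0) := by ring
    rw [e] at a2
    refine (a1.sub a2).congr' ?_
    filter_upwards [hB, hΘ] with j hBj hΘj
    rw [UPK_apply, hBj, hΘj, ey_fst, ey_snd]
    ring
  refine tendsto_of_sub ?_ h2
  have h3 := (hd.const_mul (2 * A * (D.A0 ‖α‖ * sz ξ β / 5))).add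
    ((hp.small_y D ξ β l).const_mul (2 * A))
  rw [mul_zero, mul_zero, add_zero] at h3
  refine squeeze_zero_norm' ?_ h3
  filter_upwards [hp.big D, hA, hS, hB, hΘ, hp.cc_bdd D ξ β, hp.hN.eventually_gt_atTop 0]
    with j hj hAj hSj hBj hΘj hc hNj
  have hA0 : 0 ≤ A := (norm_nonneg _).trans hAj.1
  have h4 := UNK_base_exp (D := D) (ξ := ξ) (β := β) (Θ0 := Θ0 j) (B := B) (S' := S')
    (Θ' := Θ') hAj.1 hAj.2.1 hAj.2.2.1 hAj.2.2.2 hSj.1 hSj.2 (v j)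
  rw [hBj, hΘj, ey_fst, ey_snd, sub_zero, abs_zero, add_zero, add_zero] at h4
  rw [← mul_sub, Real.norm_eq_abs, abs_mul, abs_of_pos hNj]
  set T := Real.exp (-(S0 j)) * |S' (v j)| +
      Real.exp (-((p j).1 k - S0 j)) * |(if k = l then 1 else 0) - S' (v j)|
  have hT : 0 ≤ T := by positivity
  calc _ ≤ N j * (2 * A * ‖cc D ξ β (p j)‖ * T + 2 * A * (‖cc D ξ β (p j)‖ *
        ‖dep (p j) (ey l)‖ + ‖ccD D ξ β (p j) (ey l)‖)) := mul_le_mul_of_nonneg_left h4 hNj.le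
    _ = (2 * A * ‖cc D ξ β (p j)‖) * (N j * T) + 2 * A * (N j * (‖cc D ξ β (p j)‖ *
        ‖dep (p j) (ey l)‖ + ‖ccD D ξ β (p j) (ey l)‖)) := by ring
    _ ≤ (2 * A * (D.A0 ‖α‖ * sz ξ β / 5)) * (N j * T) + 2 * A * (N j * (‖cc D ξ β (p j)‖ *
        ‖dep (p j) (ey l)‖ + ‖ccD D ξ β (p j) (ey l)‖)) := by
        refine add_le_add ?_ le_rfl
        exact mul_le_mul_of_nonneg_right (mul_le_mul_of_nonneg_left hc (by positivity))
          (by positivity)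

omit hA hS

/-! ### the cores -/

variable {K0 : J → (ι → ℂ) →L[ℂ] ℂ} {K' : J → (ι → ℂ) × ℂ →L[ℝ] ((ι → ℂ) →L[ℂ] ℂ)}
  {x' : E →L[ℝ] ℂ} (hK : ∀ᶠ j in F, ‖K0 j‖ ≤ A ∧ ‖K' j‖ ≤ A)

include hK

/-- **length**, scale `N` -/
theorem limCEul (hB : ∀ᶠ j in F, B (v j) = ey l) (hx : ∀ᶠ j in F, x' (v j) = 0) :
    Tendsto (fun j => N j * UKD D (K0 j) (K' j) ξ β (p j) B x' (v j)) F
      (𝓝 (rr Y l * wB D ξ β Y α l / Y l)) := by
  have h2 : Tendsto (fun j => N j * (rr (p j).1 l * D.wf ξ β (p j) l / (p j).1 l)) F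
      (𝓝 (rr Y l * wB D ξ β Y α l / Y l)) := by
    have a1 := ((hp.rr_lim l).mul (hp.wf_lim D ξ β l)).mul (hp.N_div_y l)
    rw [mul_one_div] at a1
    exact a1.congr fun j => by ring
  refine tendsto_of_sub ?_ h2
  have h3 : Tendsto (fun j => (1 + 5 * A) * (D.A0 ‖α‖ * sz ξ β) *
      (N j / (p j).1 l * ((p j).1 l)⁻¹)) F (𝓝 0) := by
    have a1 := ((hp.N_div_y l).mul (hp.inv_y l)).const_mul
      ((1 + 5 * A) * (D.A0 ‖α‖ * sz ξ β))
    simpa using a1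
  refine squeeze_zero_norm' ?_ h3
  filter_upwards [hp.big D, hK, hB, hx, hp.hN.eventually_gt_atTop 0] with j hj hKj hBj hxj hNj
  have h4 := (UK_y hj (hp.hΛ j) hKj.1 hKj.2 ξ β (B := B) (x' := x') (t := 1)
    (by rw [one_smul]; exact hBj) hxj).2
  rw [one_mul, abs_one] at h4
  rw [← mul_sub, Real.norm_eq_abs, abs_mul, abs_of_pos hNj]
  calc _ ≤ N j * ((1 + 5 * A) * (D.A0 ‖α‖ * sz ξ β) * (1 / (p j).1 l ^ 2)) :=
        mul_le_mul_of_nonneg_left h4 hNj.le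
    _ = _ := by
        rw [sq, one_div, mul_inv]
        ring

/-- **base angle** -/
theorem limCAl (hB : ∀ᶠ j in F, B (v j) = ea l) (hx : ∀ᶠ j in F, x' (v j) = 0) :
    Tendsto (fun j => UKD D (K0 j) (K' j) ξ β (p j) B x' (v j)) F
      (𝓝 (rr Y l * (β l / (2 * Real.pi)))) := by
  refine tendsto_of_sub ?_ ((hp.rr_lim l).mul_const (β l / (2 * Real.pi)))
  refine squeeze_zero_norm' ?_ (hp.const_div_mm ((1 + 3 * A) * (D.A0 ‖α‖ * sz ξ β)))
  filter_upwards [hp.big D, hK, hB, hx] with j hj hKj hBj hxj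
  exact (UK_a hj (hp.hΛ j) hKj.1 hKj.2 ξ β (B := B) (x' := x') hBj hxj).2

/-- **base angle, `β = 0`**, scale `N` -/
theorem limCAl0 (hB : ∀ᶠ j in F, B (v j) = ea l) (hx : ∀ᶠ j in F, x' (v j) = 0) :
    Tendsto (fun j => N j * UKD D (K0 j) (K' j) ξ 0 (p j) B x' (v j)) F (𝓝 0) := by
  have h3 := (hp.N_exp_y l).const_mul ((1 + 2 * A) * (D.A0 ‖α‖ * ‖ξ‖))
  rw [mul_zero] at h3
  refine squeeze_zero_norm' ?_ h3
  filter_upwards [hp.big D, hK, hB, hx, hp.hN.eventually_gt_atTop 0] with j hj hKj hBj hxj hNj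
  have h4 := UK_a_alpha hj (hp.hΛ j) hKj.1 hKj.2 ξ (B := B) (x' := x') hBj hxj
  rw [Real.norm_eq_abs, abs_mul, abs_of_pos hNj]
  calc _ ≤ N j * ((1 + 2 * A) * (D.A0 ‖α‖ * ‖ξ‖) * Real.exp (-((p j).1 l))) :=
        mul_le_mul_of_nonneg_left h4 hNj.le
    _ = _ := by ring

end Vale.Agent.P273.H545
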